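import Vale.Agent.P093.Gap.Markers

/-!
# P093: minimal cube subshifts with free coordinates of density close to one

A Giol–Kerr type construction: nested periodic constraints on sequences with values in `[0,1]^M`.
At every level the positions left free have density above `ρ`; along them the subshift contains a
whole cube, and it is minimal because every level prescribes a grid of all pairs of earlier blocks.
-/

namespace P093

open scoped Classical Topology unitInterval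
open Function

noncomputable section

/-- The alphabet. -/
abbrev Cube (M : ℕ) : Type := Fin M → I

/-- A level: a period, the free positions, and the prescribed values elsewhere. -/
structure Lvl (M : ℕ) where
  /-- The period. -/
  N : ℕ
  pos : 0 < N
  /-- The free positions. -/
  J : Finset ℕ
  subset : J ⊆ Finset.range N
  /-- The prescribed values. -/
  w : ℕ → Cube M

namespace Lvl

variable {M : ℕ}

/-- The position of `n` in the period. -/
def idx (L : Lvl M) (n : ℤ) : ℕ := (n % (L.N : ℤ)).toNat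

theorem idx_cast (L : Lvl M) (n : ℤ) : ((L.idx n : ℕ) : ℤ) = n % (L.N : ℤ) :=
  Int.toNat_of_nonneg (Int.emod_nonneg _ (by have := L.pos; omega))

theorem idx_lt (L : Lvl M) (n : ℤ) : L.idx n < L.N := by
  have := L.idx_cast n
  have := Int.emod_lt_of_pos n (show (0 : ℤ) < L.N by have := L.pos; omega)
  omega

theorem idx_natCast (L : Lvl M) {n : ℕ} (h : n < L.N) : L.idx n = n := by
  simp [idx, ← Int.natCast_mod, Nat.mod_eq_of_lt h]

/-- The sequences obeying the constraints of the level in some phase. -/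
def cons (L : Lvl M) : Set (ℤ → Cube M) :=
  {x | ∃ p : ℤ, ∀ n, L.idx (n - p) ∉ L.J → x n = L.w (L.idx (n - p))}

theorem isClosed_cons (L : Lvl M) : IsClosed L.cons := by
  have : L.cons = ⋃ p ∈ Finset.Ico (0 : ℤ) L.N, ⋂ n : ℤ,
      {x : ℤ → Cube M | L.idx (n - p) ∉ L.J → x n = L.w (L.idx (n - p))} := by
    ext x
    simp only [cons, Set.mem_ofPred_eq, Set.mem_iUnion, Set.mem_iInter, exists_prop]
    constructor
    · rintro ⟨p, hp⟩
      have hN : (0 : ℤ) < L.N := by exact_mod_cast L.pos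
      refine ⟨p % L.N, Finset.mem_Ico.2 ⟨Int.emod_nonneg _ hN.ne', Int.emod_lt_of_pos _ hN⟩,
        fun n => ?_⟩
      have e : L.idx (n - p % L.N) = L.idx (n - p) := by simp [idx, Int.sub_emod]
      rw [e]
      exact hp n
    · rintro ⟨p, -, hp⟩
      exact ⟨p, hp⟩
  rw [this]
  refine isClosed_biUnion_finset fun p _ => isClosed_iInter fun n => ?_
  by_cases h : L.idx (n - p) ∈ L.J
  · simp [h]
  · simpa [h] using isClosed_eq (continuous_apply n) continuous_const

variable (L : Lvl M) (K₀ : ℕ)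

/-- The grid patterns for two blocks. -/
abbrev Grid : Type := Fin (2 * L.N) → Fin M → Fin (K₀ + 1)

/-- The number of grid patterns. -/
def R : ℕ := Fintype.card (L.Grid K₀)

/-- The value of a grid coordinate. -/
def gridVal (k : Fin (K₀ + 1)) : I :=
  ⟨(k : ℕ) / ((K₀ : ℝ) + 1), by positivity, by
    rw [div_le_one (by positivity)]
    have : ((k : ℕ) : ℝ) < ((K₀ + 1 : ℕ) : ℝ) := by exact_mod_cast k.2
    push_cast at this
    linarith⟩

/-- The values prescribed by the next level. -/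
def nextW (s : ℕ) : Cube M :=
  if h : 1 ≤ s / L.N ∧ s / L.N ≤ 2 * L.R K₀ ∧ s % L.N ∈ L.J then
    fun c => gridVal K₀ ((Fintype.equivFin (L.Grid K₀)).symm
      ⟨(s / L.N - 1) / 2, show _ < L.R K₀ by omega⟩
      ⟨(s / L.N - 1) % 2 * L.N + s % L.N, by
        have := Nat.mod_lt s L.pos
        rcases Nat.mod_two_eq_zero_or_one (s / L.N - 1) with e | e <;> rw [e] <;> omega⟩ c)
  else L.w (s % L.N)

/-- The next level, with `m` copies of the old one. -/
def next (m : ℕ) (hm : 0 < m) : Lvl M where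
  N := m * L.N
  pos := Nat.mul_pos hm L.pos
  J := (Finset.range (m * L.N)).filter fun s =>
    s % L.N ∈ L.J ∧ ¬(1 ≤ s / L.N ∧ s / L.N ≤ 2 * L.R K₀)
  subset := Finset.filter_subset _ _
  w := L.nextW K₀

theorem idx_next (m : ℕ) (hm : 0 < m) (n : ℤ) :
    (L.next K₀ m hm).idx n % L.N = L.idx n := by
  have h1 := (L.next K₀ m hm).idx_cast n
  have h2 := L.idx_cast n
  have : ((((L.next K₀ m hm).idx n % L.N : ℕ)) : ℤ) = ((L.idx n : ℕ) : ℤ) := by
    rw [Int.natCast_mod, h1, h2]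
    exact Int.emod_emod_of_dvd n ⟨(m : ℤ), by simp [next, mul_comm]⟩
  exact_mod_cast this

/-- Prescribed positions stay prescribed, with the same values. -/
theorem next_persist (m : ℕ) (hm : 0 < m) (n : ℤ) (h : L.idx n ∉ L.J) :
    (L.next K₀ m hm).idx n ∉ (L.next K₀ m hm).J ∧
      (L.next K₀ m hm).w ((L.next K₀ m hm).idx n) = L.w (L.idx n) := by
  have e := L.idx_next K₀ m hm n
  constructor
  · intro hmem
    exact h (e ▸ (Finset.mem_filter.1 hmem).2.1)
  · show L.nextW K₀ _ = _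
    rw [nextW, dif_neg, e]
    rintro ⟨-, -, h3⟩
    exact h (e ▸ h3)

theorem cons_next (m : ℕ) (hm : 0 < m) : (L.next K₀ m hm).cons ⊆ L.cons := by
  rintro x ⟨p, hp⟩
  refine ⟨p, fun n hn => ?_⟩
  obtain ⟨h1, h2⟩ := L.next_persist K₀ m hm (n - p) hn
  exact (hp n h1).trans h2

theorem card_next (m : ℕ) (hm : 0 < m) (hR : 2 * L.R K₀ < m) :
    (m - 2 * L.R K₀) * L.J.card ≤ (L.next K₀ m hm).J.card := by
  let T := (Finset.range m).filter fun t => ¬(1 ≤ t ∧ t ≤ 2 * L.R K₀)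
  have hT : m - 2 * L.R K₀ ≤ T.card := by
    have h1 := Finset.card_filter_add_card_filter_not (s := Finset.range m)
      (fun t => 1 ≤ t ∧ t ≤ 2 * L.R K₀)
    have h2 : ((Finset.range m).filter fun t => 1 ≤ t ∧ t ≤ 2 * L.R K₀).card ≤
        (Finset.Icc 1 (2 * L.R K₀)).card :=
      Finset.card_le_card fun t ht => Finset.mem_Icc.2 (Finset.mem_filter.1 ht).2
    rw [Nat.card_Icc] at h2
    rw [Finset.card_range] at h1
    simp only [T]
    omega
  refine (Nat.mul_le_mul_right _ hT).trans ?_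
  rw [← Finset.card_product]
  have key : ∀ q ∈ T ×ˢ L.J, (q.1 * L.N + q.2) / L.N = q.1 ∧ (q.1 * L.N + q.2) % L.N = q.2 := by
    intro q hq
    have hlt := Finset.mem_range.1 (L.subset (Finset.mem_product.1 hq).2)
    constructor
    · rw [Nat.mul_comm, Nat.mul_add_div L.pos, Nat.div_eq_of_lt hlt, Nat.add_zero]
    · rw [Nat.mul_comm, Nat.mul_add_mod, Nat.mod_eq_of_lt hlt]
  refine Finset.card_le_card_of_injOn (fun q => q.1 * L.N + q.2) (fun q hq => ?_)
    fun q hq q' hq' e => ?_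
  · obtain ⟨hqT, hqJ⟩ := Finset.mem_product.1 hq
    obtain ⟨e1, e2⟩ := key q hq
    refine Finset.mem_filter.2 ⟨Finset.mem_range.2 ?_, by rw [e2]; exact hqJ, ?_⟩
    · have h1 := Finset.mem_range.1 (Finset.mem_filter.1 hqT).1
      have h2 := Finset.mem_range.1 (L.subset hqJ)
      calc q.1 * L.N + q.2 < (q.1 + 1) * L.N := by rw [Nat.add_mul]; omega
        _ ≤ m * L.N := Nat.mul_le_mul_right _ h1
    · rw [e1]
      exact (Finset.mem_filter.1 hqT).2
  · simp only at e
    exact Prod.ext (by rw [← (key q hq).1, ← (key q' hq').1, e])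
      (by rw [← (key q hq).2, ← (key q' hq').2, e])

theorem mem_next_of_lt (m : ℕ) (hm : 0 < m) {i : ℕ} (hi : i ∈ L.J) :
    i ∈ (L.next K₀ m hm).J := by
  have hlt := Finset.mem_range.1 (L.subset hi)
  refine Finset.mem_filter.2 ⟨Finset.mem_range.2 (lt_of_lt_of_le hlt
    (Nat.le_mul_of_pos_left _ hm)), by rwa [Nat.mod_eq_of_lt hlt], ?_⟩
  rw [Nat.div_eq_of_lt hlt]
  omega

end Lvl

variable (M : ℕ) (ρ : ℝ)

/-- How many copies the next level takes. -/
def copies (L : Lvl M) (k : ℕ) : ℕ :=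
  2 * L.R k + 2 + ⌈2 * (L.R k : ℝ) * ((k : ℝ) + 1) * ((k : ℝ) + 2) / (1 - ρ)⌉₊

/-- The levels. -/
def level : ℕ → Lvl M
  | 0 => ⟨1, one_pos, {0}, by simp, fun _ _ => 0⟩
  | k + 1 => (level k).next k (copies M ρ (level k) k) (by unfold copies; omega)

variable {M} {ρ}

theorem level_grow (k : ℕ) : k < (level M ρ k).N := by
  induction k with
  | zero => exact one_pos
  | succ k hk =>
    show k + 1 < copies M ρ (level M ρ k) k * (level M ρ k).N
    have : 2 * (level M ρ k).N ≤ copies M ρ (level M ρ k) k * (level M ρ k).N :=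
      Nat.mul_le_mul_right _ (by unfold copies; omega)
    omega

theorem level_density (h1 : ρ < 1) (k : ℕ) :
    (ρ + (1 - ρ) / ((k : ℝ) + 1)) * (level M ρ k).N ≤ (level M ρ k).J.card := by
  induction k with
  | zero => simp [level]
  | succ k hk =>
    let L := level M ρ k
    let m := copies M ρ L k
    have hm : 2 * L.R k < m := by simp only [m]; unfold copies; omega
    have hc : ((m : ℝ) - 2 * (L.R k : ℝ)) * (L.J.card : ℝ) ≤
        ((level M ρ (k + 1)).J.card : ℝ) := by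
      have h := L.card_next k m (by omega) hm
      have h' : ((((m - 2 * L.R k) * L.J.card : ℕ)) : ℝ) ≤
          (((L.next k m (by omega)).J.card : ℕ) : ℝ) := by exact_mod_cast h
      rw [Nat.cast_mul, Nat.cast_sub hm.le] at h'
      push_cast at h'
      exact h'
    have hm' : 2 * (L.R k : ℝ) * ((k : ℝ) + 1) * ((k : ℝ) + 2) / (1 - ρ) ≤ (m : ℝ) := by
      refine (Nat.le_ceil _).trans ?_
      exact Nat.cast_le.2 (Nat.le_add_left _ _)
    rw [div_le_iff₀ (by linarith)] at hm'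
    have hm2 : (0 : ℝ) ≤ (m : ℝ) - 2 * (L.R k : ℝ) := by
      have : ((2 * L.R k : ℕ) : ℝ) ≤ (m : ℝ) := by exact_mod_cast hm.le
      push_cast at this
      linarith
    show (ρ + (1 - ρ) / (((k + 1 : ℕ) : ℝ) + 1)) * (((m * L.N : ℕ)) : ℝ) ≤ _
    refine le_trans ?_ ((mul_le_mul_of_nonneg_left hk hm2).trans hc)
    push_cast
    have hN : (0 : ℝ) ≤ (L.N : ℝ) := Nat.cast_nonneg _
    have a1 : (0 : ℝ) < (k : ℝ) + 1 := by positivity
    have key : (ρ + (1 - ρ) / ((k : ℝ) + 1 + 1)) * (m : ℝ) ≤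
        ((m : ℝ) - 2 * (L.R k : ℝ)) * (ρ + (1 - ρ) / ((k : ℝ) + 1)) := by
      have e : ((m : ℝ) - 2 * (L.R k : ℝ)) * (ρ + (1 - ρ) / ((k : ℝ) + 1)) -
          (ρ + (1 - ρ) / ((k : ℝ) + 1 + 1)) * (m : ℝ) =
          ((m : ℝ) * (1 - ρ) - 2 * (L.R k : ℝ) * (ρ * ((k : ℝ) + 1) + (1 - ρ)) * ((k : ℝ) + 2)) /
            (((k : ℝ) + 1) * ((k : ℝ) + 2)) := by
        have h3 : (k : ℝ) + 1 + 1 = (k : ℝ) + 2 := by ring
        rw [h3]
        field_simp
        ring
      rw [← sub_nonneg, e]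
      refine div_nonneg ?_ (by positivity)
      have hR : (0 : ℝ) ≤ (L.R k : ℝ) := Nat.cast_nonneg _
      have hk0 : (0 : ℝ) ≤ (k : ℝ) := Nat.cast_nonneg _
      have : ρ * ((k : ℝ) + 1) + (1 - ρ) ≤ (k : ℝ) + 1 := by nlinarith
      nlinarith [mul_le_mul_of_nonneg_left this (mul_nonneg hR (show (0 : ℝ) ≤ (k : ℝ) + 2 by linarith))]
    calc (ρ + (1 - ρ) / ((k : ℝ) + 1 + 1)) * ((m : ℝ) * L.N)
        = ((ρ + (1 - ρ) / ((k : ℝ) + 1 + 1)) * m) * L.N := by ring
      _ ≤ (((m : ℝ) - 2 * (L.R k : ℝ)) * (ρ + (1 - ρ) / ((k : ℝ) + 1))) * L.N :=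
          mul_le_mul_of_nonneg_right key hN
      _ = _ := by ring

theorem persist {l₀ l : ℕ} (h : l₀ ≤ l) {n : ℤ}
    (hn : (level M ρ l₀).idx n ∉ (level M ρ l₀).J) :
    (level M ρ l).idx n ∉ (level M ρ l).J ∧
      (level M ρ l).w ((level M ρ l).idx n) = (level M ρ l₀).w ((level M ρ l₀).idx n) := by
  induction l, h using Nat.le_induction with
  | base => exact ⟨hn, rfl⟩
  | succ l _ ih =>
    obtain ⟨a, b⟩ := (level M ρ l).next_persist l (copies M ρ (level M ρ l) l)
      (by unfold copies; omega) n ih.1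
    exact ⟨a, b.trans ih.2⟩

variable (M) (ρ)

/-- The subshift. -/
def cubeSpace : Set (ℤ → Cube M) := ⋂ k, (level M ρ k).cons

variable {M} {ρ}

theorem isClosed_cubeSpace : IsClosed (cubeSpace M ρ) :=
  isClosed_iInter fun _ => Lvl.isClosed_cons _

theorem cubeSpace_shift (j : ℤ) {x : ℤ → Cube M} (hx : x ∈ cubeSpace M ρ) :
    (fun n => x (n + j)) ∈ cubeSpace M ρ := by
  refine Set.mem_iInter.2 fun k => ?_
  obtain ⟨p, hp⟩ := Set.mem_iInter.1 hx k
  refine ⟨p - j, fun n hn => ?_⟩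
  have e : n - (p - j) = n + j - p := by ring
  rw [e] at hn ⊢
  exact hp (n + j) hn

theorem continuous_shiftBy (j : ℤ) :
    Continuous fun x : cubeSpace M ρ => fun n : ℤ => x.1 (n + j) :=
  continuous_pi fun n => (continuous_apply (n + j)).comp continuous_subtype_val

/-- The shift of the subshift. -/
def cubeShift : cubeSpace M ρ ≃ₜ cubeSpace M ρ where
  toFun x := ⟨fun n => x.1 (n + 1), cubeSpace_shift 1 x.2⟩
  invFun x := ⟨fun n => x.1 (n + -1), cubeSpace_shift (-1) x.2⟩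
  left_inv x := Subtype.ext (funext fun n => by simp [add_assoc])
  right_inv x := Subtype.ext (funext fun n => by simp [add_assoc])
  continuous_toFun := (continuous_shiftBy 1).subtype_mk _
  continuous_invFun := (continuous_shiftBy (-1)).subtype_mk _

theorem orbitPt_cubeShift (j : ℤ) (x : cubeSpace M ρ) :
    orbitPt cubeShift j x = ⟨fun n => x.1 (n + j), cubeSpace_shift j x.2⟩ := by
  induction j using Int.induction_on generalizing x with
  | zero => exact (orbitPt_zero _ x).trans (Subtype.ext (by simp))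
  | succ i hi =>
    rw [orbitPt_add, hi]
    refine Subtype.ext (funext fun n => ?_)
    simp [orbitPt, cubeShift]
    ring_nf
  | pred i hi =>
    rw [sub_eq_add_neg, orbitPt_add, hi]
    refine Subtype.ext (funext fun n => ?_)
    simp [orbitPt, cubeShift]
    ring_nf

/-- Rounding a number of the unit interval to the grid. -/
def roundI (K₀ : ℕ) (t : I) : Fin (K₀ + 1) :=
  ⟨min K₀ ⌊(t : ℝ) * ((K₀ : ℝ) + 1)⌋₊, by omega⟩

theorem abs_round (K₀ : ℕ) (t : I) :
    |((Lvl.gridVal K₀ (roundI K₀ t) : I) : ℝ) - t| ≤ 1 / ((K₀ : ℝ) + 1) := by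
  have hp : (0 : ℝ) < (K₀ : ℝ) + 1 := by positivity
  have ht0 : (0 : ℝ) ≤ t := t.2.1
  have ht1 : (t : ℝ) ≤ 1 := t.2.2
  have e : ((min K₀ ⌊(t : ℝ) * ((K₀ : ℝ) + 1)⌋₊ : ℕ) : ℝ) / ((K₀ : ℝ) + 1) - t =
      (((min K₀ ⌊(t : ℝ) * ((K₀ : ℝ) + 1)⌋₊ : ℕ) : ℝ) - t * ((K₀ : ℝ) + 1)) / ((K₀ : ℝ) + 1) := by
    field_simp
  show |((min K₀ ⌊(t : ℝ) * ((K₀ : ℝ) + 1)⌋₊ : ℕ) : ℝ) / ((K₀ : ℝ) + 1) - t| ≤ _
  rw [e, abs_div, abs_of_pos hp]
  refine div_le_div_of_nonneg_right ?_ hp.le
  have h1 := Nat.floor_le (mul_nonneg ht0 hp.le)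
  have h2 := Nat.lt_floor_add_one ((t : ℝ) * ((K₀ : ℝ) + 1))
  rw [abs_le]
  rcases min_cases K₀ ⌊(t : ℝ) * ((K₀ : ℝ) + 1)⌋₊ with ⟨hm, hle⟩ | ⟨hm, hle⟩ <;> rw [hm]
  · have : (K₀ : ℝ) ≤ (⌊(t : ℝ) * ((K₀ : ℝ) + 1)⌋₊ : ℝ) := by exact_mod_cast hle
    constructor <;> nlinarith
  · constructor <;> linarith

/-- Every orbit of the subshift is dense. -/
theorem cubeShift_minimal (x : cubeSpace M ρ) :
    Dense (Set.range fun j : ℤ => orbitPt cubeShift j x) := by
  refine dense_iff_inter_open.2 fun V hV ⟨y, hy⟩ => ?_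
  obtain ⟨V', hV', rfl⟩ := isOpen_induced_iff.1 hV
  obtain ⟨F, u, hu, hsub⟩ := isOpen_pi_iff.1 hV' y.1 hy
  -- one radius for the finitely many coordinates
  have hball : ∀ n ∈ F, ∀ᶠ k : ℕ in Filter.atTop,
      Metric.closedBall (y.1 n) (1 / ((k : ℝ) + 1)) ⊆ u n := by
    intro n hn
    obtain ⟨δ, hδ, hb⟩ := Metric.isOpen_iff.1 (hu n hn).1 _ (hu n hn).2
    obtain ⟨k₀, hk₀⟩ := exists_nat_one_div_lt hδ
    refine Filter.eventually_atTop.2 ⟨k₀, fun k hk => (Metric.closedBall_subset_ball ?_).trans hb⟩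
    exact lt_of_le_of_lt (Nat.one_div_le_one_div hk) hk₀
  have hA : ∀ᶠ k : ℕ in Filter.atTop, 2 * (F.sup Int.natAbs) < k :=
    Filter.eventually_gt_atTop _
  obtain ⟨k, hk, hkA⟩ := ((Filter.eventually_all_finset F).2 hball |>.and hA).exists
  let L := level M ρ k
  have hkN : k < L.N := level_grow k
  obtain ⟨p, hp⟩ := Set.mem_iInter.1 y.2 k
  let a : ℤ := (F.sup Int.natAbs : ℕ)
  let n₀ : ℤ := -a - (L.idx (-a - p) : ℤ)
  let g : L.Grid k := fun i c => roundI k (y.1 (n₀ + (i : ℕ)) c)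
  let r := Fintype.equivFin (L.Grid k) g
  obtain ⟨q, hq⟩ := Set.mem_iInter.1 x.2 (k + 1)
  refine ⟨orbitPt cubeShift (q + ((2 * (r : ℕ) + 1) * L.N : ℕ) - n₀) x, ?_, ⟨_, rfl⟩⟩
  show (orbitPt cubeShift _ x : cubeSpace M ρ).1 ∈ V'
  refine hsub fun n hn => ?_
  refine hk n hn ?_
  rw [orbitPt_cubeShift]
  have hna : n.natAbs ≤ F.sup Int.natAbs := Finset.le_sup (f := Int.natAbs) hn
  have hidx := L.idx_lt (-a - p)
  obtain ⟨i, hi⟩ := Int.eq_ofNat_of_zero_le (show 0 ≤ n - n₀ by simp only [n₀, a]; omega)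
  have hi2 : i < 2 * L.N := by simp only [n₀, a] at hi hidx; omega
  let s : ℕ := (2 * (r : ℕ) + 1) * L.N + i
  have hs1 : s / L.N = 2 * (r : ℕ) + 1 + i / L.N := by
    simp only [s]
    rw [Nat.mul_comm, Nat.mul_add_div L.pos]
  have hs2 : s % L.N = i % L.N := by
    simp only [s]
    rw [Nat.mul_comm, Nat.mul_add_mod]
  have hs3 : i / L.N < 2 := (Nat.div_lt_iff_lt_mul L.pos).2 hi2
  have hr : (r : ℕ) < L.R k := r.2
  obtain ⟨u, hu⟩ : ∃ u : ℕ, i / L.N = u := ⟨_, rfl⟩
  rw [hu] at hs1 hs3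
  have hsN : s < (level M ρ (k + 1)).N := by
    show s < copies M ρ L k * L.N
    calc s < ((2 * (r : ℕ) + 1) + 2) * L.N := by have := Nat.add_mul (2 * (r : ℕ) + 1) 2 L.N; simp only [s]; omega
      _ ≤ _ := Nat.mul_le_mul_right _ (by unfold copies; omega)
  have hidxs : (level M ρ (k + 1)).idx
      (n + (q + ((2 * (r : ℕ) + 1) * L.N : ℕ) - n₀) - q) = s := by
    have : n + (q + ((2 * (r : ℕ) + 1) * L.N : ℕ) - n₀) - q = ((s : ℕ) : ℤ) := by
      simp only [s]
      push_cast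
      omega
    rw [this]
    exact Lvl.idx_natCast _ hsN
  have hnotJ : s ∉ (level M ρ (k + 1)).J := fun hmem =>
    (Finset.mem_filter.1 hmem).2.2 ⟨show 1 ≤ s / L.N by rw [hs1]; omega,
      show s / L.N ≤ 2 * L.R k by rw [hs1]; omega⟩
  have hxval : x.1 (n + (q + ((2 * (r : ℕ) + 1) * L.N : ℕ) - n₀)) = L.nextW k s := by
    have := hq (n + (q + ((2 * (r : ℕ) + 1) * L.N : ℕ) - n₀)) (by rw [hidxs]; exact hnotJ)
    rw [hidxs] at this
    exact this
  show x.1 (n + (q + ((2 * (r : ℕ) + 1) * L.N : ℕ) - n₀)) ∈ Metric.closedBall (y.1 n) _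
  rw [hxval, Metric.mem_closedBall]
  have hyn : n₀ + (i : ℤ) = n := by omega
  have hmodp : L.idx (n - p) = i % L.N := by
    have h1 := L.idx_cast (n - p)
    have h2 := L.idx_cast (-a - p)
    have h3 := Int.mul_ediv_add_emod (-a - p) L.N
    have e : n - p = (i : ℤ) + (L.N : ℤ) * ((-a - p) / L.N) := by
      simp only [n₀] at hyn
      omega
    rw [e, Int.add_mul_emod_self_left, ← Int.natCast_mod] at h1
    rw [e]
    exact_mod_cast h1
  by_cases hJ : s % L.N ∈ L.J
  · rw [Lvl.nextW, dif_pos ⟨show 1 ≤ s / L.N by rw [hs1]; omega,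
      show s / L.N ≤ 2 * L.R k by rw [hs1]; omega, hJ⟩]
    refine (dist_pi_le_iff (by positivity)).2 fun c => ?_
    have e1 : (s / L.N - 1) / 2 = (r : ℕ) := by rw [hs1]; omega
    have e2 : (s / L.N - 1) % 2 * L.N + s % L.N = i := by
      have h4 : (s / L.N - 1) % 2 = i / L.N := by rw [hs1, hu]; omega
      rw [h4, hs2, Nat.mul_comm]
      exact Nat.div_add_mod i L.N
    have e3 : (Fintype.equivFin (L.Grid k)).symm ⟨(s / L.N - 1) / 2, show _ < L.R k by rw [hs1]; omega⟩ = g := by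
      rw [Equiv.symm_apply_eq]
      exact Fin.ext e1
    rw [e3, Subtype.dist_eq, Real.dist_eq]
    simp only [g, e2, hyn]
    exact abs_round k _
  · rw [Lvl.nextW, dif_neg (fun h => hJ h.2.2)]
    have := hp n (by rw [hmodp, ← hs2]; exact hJ)
    rw [hmodp, ← hs2] at this
    rw [this, dist_self]
    positivity

/-- The point of the subshift with given values at the free positions of level `k`. -/
def liftVal (k : ℕ) (z : ↥(level M ρ k).J → Cube M) (n : ℤ) : Cube M :=
  if h : ∃ l, (level M ρ l).idx n ∉ (level M ρ l).J then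
    (level M ρ (Nat.find h)).w ((level M ρ (Nat.find h)).idx n)
  else if hJ : n.toNat ∈ (level M ρ k).J then z ⟨n.toNat, hJ⟩ else fun _ => 0

theorem liftVal_mem (k : ℕ) (z : ↥(level M ρ k).J → Cube M) :
    liftVal k z ∈ cubeSpace M ρ := by
  refine Set.mem_iInter.2 fun l => ⟨0, fun n hn => ?_⟩
  rw [sub_zero] at hn ⊢
  have h : ∃ l, (level M ρ l).idx n ∉ (level M ρ l).J := ⟨l, hn⟩
  rw [liftVal, dif_pos h]
  exact ((persist (Nat.find_le hn) (Nat.find_spec h)).2).symm

/-- The lift of the cube. -/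
def cubeLift (k : ℕ) (z : ↥(level M ρ k).J → Cube M) : cubeSpace M ρ :=
  ⟨liftVal k z, liftVal_mem k z⟩

theorem continuous_cubeLift (k : ℕ) : Continuous (cubeLift (M := M) (ρ := ρ) k) := by
  refine (continuous_pi fun n => ?_).subtype_mk _
  unfold liftVal
  split_ifs
  · exact continuous_const
  · exact continuous_apply _
  · exact continuous_const

theorem liftVal_free (k : ℕ) (z : ↥(level M ρ k).J → Cube M) {i : ℕ}
    (hi : i ∈ (level M ρ k).J) : liftVal k z i = z ⟨i, hi⟩ := by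
  have hlt : ∀ {l}, i ∈ (level M ρ l).J → i < (level M ρ l).N := fun {l} h =>
    Finset.mem_range.1 ((level M ρ l).subset h)
  have hmem : ∀ l, k ≤ l → i ∈ (level M ρ l).J := by
    intro l hl
    induction l, hl using Nat.le_induction with
    | base => exact hi
    | succ l _ ih => exact (level M ρ l).mem_next_of_lt l _ _ ih
  have hno : ¬ ∃ l, (level M ρ l).idx i ∉ (level M ρ l).J := by
    rintro ⟨l, hl⟩
    have := (persist (le_max_left l k) hl).1
    have hm := hmem _ (le_max_right l k)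
    rw [Lvl.idx_natCast _ (hlt hm)] at this
    exact this hm
  rw [liftVal, dif_neg hno]
  simp only [Int.toNat_natCast, dif_pos hi]

theorem liftVal_fixed (k : ℕ) (z : ↥(level M ρ k).J → Cube M) {i : ℕ}
    (hi : i < (level M ρ k).N) (hJ : i ∉ (level M ρ k).J) :
    liftVal k z i = (level M ρ k).w i := by
  obtain ⟨p, hp⟩ : ∃ p : ℤ, ∀ n, (level M ρ k).idx (n - p) ∉ (level M ρ k).J →
      liftVal k z n = (level M ρ k).w ((level M ρ k).idx (n - p)) := Set.mem_iInter.1 (liftVal_mem k z) k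
  have h : ∃ l, (level M ρ l).idx (i : ℤ) ∉ (level M ρ l).J :=
    ⟨k, by rwa [Lvl.idx_natCast _ hi]⟩
  rw [liftVal, dif_pos h]
  have hk : (level M ρ k).idx (i : ℤ) ∉ (level M ρ k).J := by rwa [Lvl.idx_natCast _ hi]
  have := (persist (Nat.find_le hk) (Nat.find_spec h)).2
  rw [Lvl.idx_natCast _ hi] at this
  exact this.symm

theorem iterate_cubeShift (i : ℕ) (x : cubeSpace M ρ) :
    ((⇑(cubeShift (M := M) (ρ := ρ)))^[i] x).1 0 = x.1 i := by
  rw [← orbitPt_natCast, orbitPt_cubeShift]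
  simp

theorem cubeSpace_infinite (hM : 0 < M) (h0 : 0 ≤ ρ) (h1 : ρ < 1) :
    Infinite (cubeSpace M ρ) := by
  have : Nonempty (Fin M) := ⟨⟨0, hM⟩⟩
  have hpos : 0 < (level M ρ 1).J.card := by
    have := level_density (M := M) h1 1
    have hN : (0 : ℝ) < (level M ρ 1).N := by exact_mod_cast (level M ρ 1).pos
    have : (0 : ℝ) < ((level M ρ 1).J.card : ℝ) :=
      lt_of_lt_of_le (mul_pos (by norm_num; linarith) hN) this
    exact_mod_cast this
  obtain ⟨i, hi⟩ := Finset.card_pos.1 hpos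
  have : Infinite I := Set.infinite_coe_iff.2 (Set.Icc_infinite zero_lt_one)
  refine Infinite.of_injective (fun t : I => cubeLift 1 (fun _ _ => t) : I → cubeSpace M ρ) ?_
  intro t t' h
  have := congrArg (fun x : cubeSpace M ρ => x.1 (i : ℤ) ⟨0, hM⟩) h
  simpa [cubeLift, liftVal_free 1 _ hi] using this

/-- Minimal cube subshifts with free coordinates of density above `ρ`. -/
theorem exists_cubeSystem (hM : 0 < M) (h0 : 0 ≤ ρ) (h1 : ρ < 1) :
    ∃ (X : Type) (_ : TopologicalSpace X) (_ : CompactSpace X) (_ : T2Space X)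
      (_ : TopologicalSpace.MetrizableSpace X) (_ : Infinite X) (h : X ≃ₜ X) (f : C(X, Cube M)),
      (∀ x, Dense (Set.range fun n : ℤ => orbitPt h n x)) ∧
      ∀ N₀ : ℕ, ∃ N ≥ N₀, ∃ J ⊆ Finset.range N, ρ * N ≤ J.card ∧
        ∃ (w : ℕ → Cube M) (lift : C(↥J → Cube M, X)), ∀ z,
          (∀ i (hi : i ∈ J), f ((⇑h)^[i] (lift z)) = z ⟨i, hi⟩) ∧
          ∀ i < N, i ∉ J → f ((⇑h)^[i] (lift z)) = w i := by
  have : CompactSpace (cubeSpace M ρ) := isCompact_iff_compactSpace.1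
    isClosed_cubeSpace.isCompact
  refine ⟨cubeSpace M ρ, inferInstance, inferInstance, inferInstance, inferInstance,
    cubeSpace_infinite hM h0 h1, cubeShift,
    ⟨fun x => x.1 0, (continuous_apply 0).comp continuous_subtype_val⟩, cubeShift_minimal,
    fun N₀ => ⟨(level M ρ N₀).N, (level_grow N₀).le, (level M ρ N₀).J, (level M ρ N₀).subset, ?_,
      (level M ρ N₀).w, ⟨cubeLift N₀, continuous_cubeLift N₀⟩, fun z => ⟨?_, ?_⟩⟩⟩
  · refine le_trans (mul_le_mul_of_nonneg_right ?_ (Nat.cast_nonneg _)) (level_density h1 N₀)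
    have : (0 : ℝ) ≤ (1 - ρ) / ((N₀ : ℝ) + 1) := div_nonneg (by linarith) (by positivity)
    linarith
  · intro i hi
    exact (iterate_cubeShift i _).trans (liftVal_free N₀ z hi)
  · intro i hi hJ
    exact (iterate_cubeShift i _).trans (liftVal_fixed N₀ z hi hJ)

end

end P093
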