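import Mathlib

/-!
# P093: mean dimension

The order of a finite family, the least order of a finite open refinement, the joins `U^[0,N)` and
mean dimension.
-/

namespace P093

open Filter
open scoped Classical ENNReal

noncomputable section

variable {X : Type*} [TopologicalSpace X]

/-- The order of the family is at most `d`: no point is in more than `d + 1` members. -/
def OrderLE (W : Finset (Set X)) (d : ℕ) : Prop :=
  ∀ x, (W.filter fun w => x ∈ w).card ≤ d + 1

/-- A finite open cover refining `V`. -/
def Refines {ι : Type*} (W : Finset (Set X)) (V : ι → Set X) : Prop :=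
  (∀ w ∈ W, IsOpen w ∧ ∃ i, w ⊆ V i) ∧ ∀ x, ∃ w ∈ W, x ∈ w

/-- The least order of a finite open refinement. -/
def refineOrder {ι : Type*} (V : ι → Set X) : ℕ :=
  sInf {d | ∃ W : Finset (Set X), Refines W V ∧ OrderLE W d}

/-- The cover `U^[0,N)`, the join of the `h^(-j) U` with `j < N`. -/
def joinCover {ι : Type*} (h : X ≃ₜ X) (U : ι → Set X) (N : ℕ) : (Fin N → ι) → Set X :=
  fun s => ⋂ j : Fin N, (⇑h)^[(j : ℕ)] ⁻¹' U (s j)

/-- Mean dimension. The limits exist, so they are written as upper limits. -/
def meanDim (h : X ≃ₜ X) : ℝ≥0∞ :=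
  ⨆ (n : ℕ) (U : Fin n → Set X) (_ : ∀ i, IsOpen (U i)) (_ : ∀ x, ∃ i, x ∈ U i),
    atTop.limsup fun N : ℕ => (refineOrder (joinCover h U N) : ℝ≥0∞) / N

end

end P093
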