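import Vale.Agent.P093.Gap.Kuhn
import Vale.Agent.P093.Gap.MeanDimDef
import Vale.Agent.P093.Gap.CubeSystem

/-!
# P093: mean dimension of cube systems

The order of refinements of the joins `U^[0,N)` is at least the number of free coordinates of a cube
lifted to the window, by the covering theorem, and for a system of sequences in which every orbit
obeys periodic constraints it is at most the number of unconstrained coordinates in the window.
So the cube subshifts have mean dimension equal to `M` times the density of their free coordinates.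
-/

namespace P093

open Filter
open scoped Classical Topology unitInterval ENNReal

noncomputable section

variable {X : Type*} [TopologicalSpace X]

/-! ### The lower bound -/

theorem le_refineOrder_of_cube {ι : Type*} [Fintype ι] {M : ℕ} (h : X ≃ₜ X) (f : C(X, Cube M))
    (U : ι → Set X) (hU : ∀ i, IsOpen (U i)) (hcov : ∀ x, ∃ i, x ∈ U i)
    (hside : ∀ i c, (∀ x ∈ U i, f x c ≠ 0) ∨ ∀ x ∈ U i, f x c ≠ 1)
    {N : ℕ} (J : Finset ℕ) (hJ : J ⊆ Finset.range N) (lift : C(↥J → Cube M, X))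
    (hlift : ∀ z i (hi : i ∈ J), f ((⇑h)^[i] (lift z)) = z ⟨i, hi⟩) :
    J.card * M ≤ refineOrder (joinCover h U N) := by
  have hne : {d | ∃ W : Finset (Set X), Refines W (joinCover h U N) ∧ OrderLE W d}.Nonempty := by
    refine ⟨_, Finset.univ.image (joinCover h U N), ⟨fun w hw => ?_, fun x => ?_⟩,
      fun x => (Finset.card_filter_le _ _).trans (Nat.le_succ _)⟩
    · obtain ⟨s, -, rfl⟩ := Finset.mem_image.1 hw
      exact ⟨isOpen_iInter_of_finite fun j => (hU _).preimage (h.continuous.iterate _), s,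
        subset_rfl⟩
    · choose s hs using fun j : Fin N => hcov ((⇑h)^[(j : ℕ)] x)
      exact ⟨_, Finset.mem_image_of_mem _ (Finset.mem_univ s), Set.mem_iInter.2 hs⟩
  refine le_csInf hne ?_
  rintro d ⟨W, ⟨hW, hWcov⟩, hord⟩
  obtain ⟨q⟩ : Nonempty (↥J × Fin M ≃ Fin (J.card * M)) :=
    ⟨Fintype.equivFinOfCardEq (by simp)⟩
  let e : C(Fin (J.card * M) → I, X) := lift.comp
    ⟨fun u i c => u (q (i, c)), continuous_pi fun i => continuous_pi fun c => continuous_apply _⟩
  obtain ⟨u, hu⟩ := exists_mem_many (fun w : ↥W => e ⁻¹' (w : Set X))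
    (fun w => (hW w w.2).1.preimage e.continuous)
    (fun u => by
      obtain ⟨w, hw, hx⟩ := hWcov (e u)
      exact ⟨⟨w, hw⟩, hx⟩)
    (fun w k => by
      rintro ⟨⟨a, ha, ha0⟩, b, hb, hb1⟩
      obtain ⟨s, hs⟩ := (hW w w.2).2
      obtain ⟨⟨i, c⟩, rfl⟩ := q.surjective k
      have hiN := Finset.mem_range.1 (hJ i.2)
      have ha' := Set.mem_iInter.1 (hs ha) ⟨i, hiN⟩
      have hb' := Set.mem_iInter.1 (hs hb) ⟨i, hiN⟩
      rcases hside (s ⟨i, hiN⟩) c with hs | hs
      · refine hs _ ha' ?_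
        simp only [e, ContinuousMap.comp_apply, hlift _ _ i.2]
        exact ha0
      · refine hs _ hb' ?_
        simp only [e, ContinuousMap.comp_apply, hlift _ _ i.2]
        exact hb1)
  have h1 : (Finset.univ.filter fun w : ↥W => u ∈ e ⁻¹' (w : Set X)).card ≤
      (W.filter fun w => e u ∈ w).card :=
    Finset.card_le_card_of_injOn Subtype.val
      (fun w hw => Finset.mem_filter.2 ⟨w.2, (Finset.mem_filter.1 hw).2⟩)
      Subtype.val_injective.injOn
  have h2 := hord (e u)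
  omega

/-- Cubes of dimension at least `m N` in arbitrarily long windows give mean dimension at least
`m`. -/
theorem meanDim_ge {M : ℕ} {m : ℝ} (h : X ≃ₜ X) (f : C(X, Cube M))
    (hcube : ∀ N₀ : ℕ, ∃ N ≥ N₀, ∃ J ⊆ Finset.range N, m * N ≤ J.card * M ∧
      ∃ lift : C(↥J → Cube M, X), ∀ z i (hi : i ∈ J), f ((⇑h)^[i] (lift z)) = z ⟨i, hi⟩) :
    ENNReal.ofReal m ≤ meanDim h := by
  let e := Fintype.equivFin (Fin M → Bool)
  let U : Fin (Fintype.card (Fin M → Bool)) → Set X :=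
    fun i => {x | ∀ c, f x c ≠ if e.symm i c then 1 else 0}
  have hU : ∀ i, IsOpen (U i) := fun i => by
    simp only [U, Set.setOf_forall]
    exact isOpen_iInter_of_finite fun c =>
      isOpen_ne.preimage ((continuous_apply c).comp f.continuous)
  have hcov : ∀ x, ∃ i, x ∈ U i := fun x => by
    refine ⟨e fun c => decide (f x c ≠ 1), fun c => ?_⟩
    rw [Equiv.symm_apply_apply]
    by_cases hc : f x c = 1
    · simp [hc]
    · simp [hc]
  have hside : ∀ i c, (∀ x ∈ U i, f x c ≠ 0) ∨ ∀ x ∈ U i, f x c ≠ 1 := fun i c => by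
    cases hb : e.symm i c
    · exact Or.inl fun x hx => by simpa [hb] using hx c
    · exact Or.inr fun x hx => by simpa [hb] using hx c
  refine le_iSup_of_le _ (le_iSup_of_le U (le_iSup_of_le hU (le_iSup_of_le hcov ?_)))
  refine le_limsup_of_frequently_le' (frequently_atTop.2 fun N₀ => ?_)
  obtain ⟨N, hN, J, hJ, hcard, lift, hlift⟩ := hcube (max N₀ 1)
  refine ⟨N, le_trans (le_max_left _ _) hN, ?_⟩
  have hN0 : 0 < N := lt_of_lt_of_le one_pos (le_trans (le_max_right _ _) hN)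
  rw [ENNReal.le_div_iff_mul_le (Or.inl (by exact_mod_cast hN0.ne'))
    (Or.inl (ENNReal.natCast_ne_top N)), ← ENNReal.ofReal_natCast N,
    ← ENNReal.ofReal_mul' (Nat.cast_nonneg _)]
  refine (ENNReal.ofReal_le_ofReal (hcard.trans ?_)).trans_eq (ENNReal.ofReal_natCast _)
  exact_mod_cast le_refineOrder_of_cube h f U hU hcov hside J hJ lift hlift

/-! ### The upper bound -/

/-- The points with at most `d` coordinates off a fine grid have fine open covers of order `d`. -/
theorem exists_skeleton_cover (κ : Type) [Fintype κ] {η : ℝ} (hη : 0 < η) (G : Finset I)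
    (h0 : (0 : I) ∈ G) (hgrid : ∀ a ∈ G, (a : ℝ) < 1 → ∃ b ∈ G, (a : ℝ) < b ∧ (b : ℝ) ≤ a + η)
    (d : ℕ) :
    ∃ (T : Type) (_ : Fintype T) (V : T → Set (κ → I)), (∀ i, IsOpen (V i)) ∧
      (∀ i, ∀ y ∈ V i, ∀ y' ∈ V i, ∀ c, |(y c : ℝ) - (y' c : ℝ)| ≤ 2 * η) ∧
      ∀ y, (Finset.univ.filter fun c => y c ∉ G).card ≤ d →
        (∃ i, y ∈ V i) ∧ (Finset.univ.filter fun i => y ∈ V i).card ≤ d + 1 := by
  obtain ⟨δ, hδ, hδη, hsep⟩ : ∃ δ > 0, δ ≤ η ∧
      ∀ a ∈ G, ∀ b ∈ G, a ≠ b → 2 * δ ≤ |(a : ℝ) - (b : ℝ)| := by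
    let D := insert η (((G ×ˢ G).filter fun q => q.1 ≠ q.2).image
      fun q => |(q.1 : ℝ) - (q.2 : ℝ)| / 2)
    refine ⟨D.min' (Finset.insert_nonempty _ _), ?_, D.min'_le _ (Finset.mem_insert_self _ _),
      fun a ha b hb hab => ?_⟩
    · refine (Finset.lt_min'_iff _ _).2 fun r hr => ?_
      rcases Finset.mem_insert.1 hr with rfl | hr
      · exact hη
      · obtain ⟨q, hq, rfl⟩ := Finset.mem_image.1 hr
        have : (q.1 : ℝ) - (q.2 : ℝ) ≠ 0 :=
          sub_ne_zero.2 fun e => (Finset.mem_filter.1 hq).2 (Subtype.ext e)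
        exact div_pos (abs_pos.2 this) two_pos
    · have := D.min'_le _ (Finset.mem_insert_of_mem (Finset.mem_image_of_mem _
        (Finset.mem_filter.2 ⟨Finset.mem_product.2 ⟨ha, hb⟩, hab⟩ :
          (a, b) ∈ (G ×ˢ G).filter fun q => q.1 ≠ q.2)))
      simp only at this ⊢
      linarith
  -- decreasing thresholds
  let lev : ℕ → ℝ := fun e => δ / ((e : ℝ) + 1)
  have hlev : ∀ {e e' : ℕ}, e ≤ e' → lev e' ≤ lev e := fun {e e'} he =>
    div_le_div_of_nonneg_left hδ.le (by positivity)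
      (by have : (e : ℝ) ≤ e' := Nat.cast_le.2 he; linarith)
  have hlev_pos : ∀ e, 0 < lev e := fun e => by positivity
  have hlev_le : ∀ e, lev e ≤ δ := fun e => by simpa [lev] using hlev (Nat.zero_le e)
  -- the conditions on one coordinate
  let far : ℝ → (κ → I) → Finset κ := fun t y =>
    Finset.univ.filter fun c => ∀ b ∈ G, t < |(y c : ℝ) - (b : ℝ)|
  let Cond : Finset κ → (κ → ↥G) → ℝ → κ → (κ → I) → Prop := fun S g t c y =>
    if c ∈ S then ((g c : I) : ℝ) + t < y c ∧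
        ∀ b ∈ G, ((g c : I) : ℝ) < b → (y c : ℝ) + t < b
    else |(y c : ℝ) - ((g c : I) : ℝ)| < t
  let V : {S : Finset κ // S.card ≤ d} × (κ → ↥G) → Set (κ → I) := fun i =>
    {y | ∃ t ∈ Set.Ioo (lev (i.1.1.card + 1)) (lev i.1.1.card), ∀ c, Cond i.1.1 i.2 t c y}
  refine ⟨{S : Finset κ // S.card ≤ d} × (κ → ↥G), inferInstance, V, fun i => ?_,
    fun i y hy y' hy' c => ?_, fun y hy => ⟨?_, ?_⟩⟩
  · have : V i = ⋃ t ∈ Set.Ioo (lev (i.1.1.card + 1)) (lev i.1.1.card),
        ⋂ c, {y | Cond i.1.1 i.2 t c y} := by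
      ext y
      simp only [V, Set.mem_ofPred_eq, Set.mem_iUnion, Set.mem_iInter, exists_prop]
    rw [this]
    refine isOpen_biUnion fun t _ => isOpen_iInter_of_finite fun c => ?_
    have hc : Continuous fun y : κ → I => (y c : ℝ) :=
      continuous_subtype_val.comp (continuous_apply c)
    by_cases hS : c ∈ i.1.1
    · have : {y | Cond i.1.1 i.2 t c y} = {y : κ → I | ((i.2 c : I) : ℝ) + t < y c} ∩
          ⋂ b ∈ G.filter fun b : I => ((i.2 c : I) : ℝ) < b,
            {y : κ → I | (y c : ℝ) + t < b} := by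
        ext y
        simp only [Cond, if_pos hS, Set.mem_inter_iff, Set.mem_ofPred_eq, Set.mem_iInter,
          Finset.mem_filter, and_imp]
      rw [this]
      exact (isOpen_lt continuous_const hc).inter
        (isOpen_biInter_finset fun b _ => isOpen_lt (hc.add continuous_const) continuous_const)
    · simp only [Cond, if_neg hS]
      exact isOpen_lt (hc.sub continuous_const).abs continuous_const
  · have key : ∀ y ∈ V i, |(y c : ℝ) - ((i.2 c : I) : ℝ)| ≤ η := by
      rintro z ⟨t, ht, hz⟩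
      have hc := hz c
      have ht0 : 0 < t := lt_trans (hlev_pos _) ht.1
      by_cases hS : c ∈ i.1.1
      · simp only [Cond, if_pos hS] at hc
        have hlt : ((i.2 c : I) : ℝ) < 1 := by have := (z c).2.2; linarith [hc.1]
        obtain ⟨b, hb, hab, hbη⟩ := hgrid _ (i.2 c).2 hlt
        have := hc.2 b hb hab
        rw [abs_le]
        constructor <;> linarith [hc.1]
      · simp only [Cond, if_neg hS] at hc
        linarith [ht.2, hlev_le i.1.1.card]
    have h1 := abs_le.1 (key y hy)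
    have h2 := abs_le.1 (key y' hy')
    rw [abs_le]
    constructor <;> linarith
  · have ht : ∀ e : ℕ, ∃ t ∈ Set.Ioo (lev (e + 1)) (lev e),
        t ∉ (Finset.univ ×ˢ G).image fun q : κ × I => |(y q.1 : ℝ) - (q.2 : ℝ)| := fun e =>
      (Set.Ioo_infinite (show lev (e + 1) < lev e from
        div_lt_div_of_pos_left hδ (by positivity) (by push_cast; linarith))).exists_notMem_finset _
    choose t ht1 ht2 using ht
    have hpos : ∀ e, 0 < t e := fun e => lt_trans (hlev_pos _) (ht1 e).1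
    have hsmall : ∀ e, (far (t e) y).card ≤ d := fun e => by
      refine le_trans (Finset.card_le_card fun c hc => ?_) hy
      refine Finset.mem_filter.2 ⟨Finset.mem_univ _, fun hG => ?_⟩
      have := (Finset.mem_filter.1 hc).2 _ hG
      simp only [sub_self, abs_zero] at this
      linarith [hpos e]
    have hex : ∃ e, (far (t e) y).card ≤ e := ⟨d, hsmall d⟩
    obtain ⟨e, he, hmin⟩ : ∃ e, (far (t e) y).card ≤ e ∧ ∀ e' < e, ¬ (far (t e') y).card ≤ e' :=
      ⟨Nat.find hex, Nat.find_spec hex, fun _ h => Nat.find_min hex h⟩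
    have hcard : (far (t e) y).card = e := by
      refine le_antisymm he ?_
      rcases e.eq_zero_or_pos with rfl | hp
      · exact Nat.zero_le _
      have h1 := hmin (e - 1) (by omega)
      have h2 : (far (t (e - 1)) y).card ≤ (far (t e) y).card :=
        Finset.card_le_card fun c hc => Finset.mem_filter.2 ⟨Finset.mem_univ _, fun b hb => by
          have := (Finset.mem_filter.1 hc).2 b hb
          have h3 := (ht1 e).2
          have h4 := (ht1 (e - 1)).1
          rw [Nat.sub_add_cancel hp] at h4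
          linarith⟩
      omega
    have hg : ∀ c, ∃ a : ↥G,
        if c ∈ far (t e) y then ((a : I) : ℝ) + t e < y c ∧
            ∀ b ∈ G, ((a : I) : ℝ) < b → (y c : ℝ) + t e < b
        else |(y c : ℝ) - ((a : I) : ℝ)| < t e := by
      intro c
      by_cases hc : c ∈ far (t e) y
      · simp only [if_pos hc]
        have hne : (G.filter fun b : I => b ≤ y c).Nonempty :=
          ⟨0, Finset.mem_filter.2 ⟨h0, unitInterval.nonneg'⟩⟩
        obtain ⟨haG, hay⟩ := Finset.mem_filter.1 (Finset.max'_mem _ hne)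
        refine ⟨⟨_, haG⟩, ?_, fun b hb hlt => ?_⟩
        · have h := (Finset.mem_filter.1 hc).2 _ haG
          rw [abs_of_nonneg (sub_nonneg.2 (by exact_mod_cast hay))] at h
          linarith
        · have h := (Finset.mem_filter.1 hc).2 _ hb
          have hby : (y c : ℝ) < (b : ℝ) := by
            by_contra hcon
            have hle := Finset.le_max' (G.filter fun b : I => b ≤ y c) b
              (Finset.mem_filter.2 ⟨hb, Subtype.coe_le_coe.1 (not_lt.1 hcon)⟩)
            exact not_le.2 hlt (Subtype.coe_le_coe.2 hle)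
          rw [abs_of_neg (sub_neg.2 hby)] at h
          linarith
      · simp only [if_neg hc]
        have hc' : ¬ ∀ b ∈ G, t e < |(y c : ℝ) - (b : ℝ)| := by simpa [far] using hc
        push Not at hc'
        obtain ⟨b, hb, hle⟩ := hc'
        refine ⟨⟨b, hb⟩, lt_of_le_of_ne hle fun heq => ht2 e ?_⟩
        exact Finset.mem_image.2 ⟨(c, b), Finset.mem_product.2 ⟨Finset.mem_univ _, hb⟩, heq⟩
    choose g hg using hg
    exact ⟨(⟨far (t e) y, hsmall e⟩, g), t e, by rw [hcard]; exact ht1 e, hg⟩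
  · have hS : ∀ (i : {S : Finset κ // S.card ≤ d} × (κ → ↥G)) (t : ℝ), 0 < t → (∀ c, Cond i.1.1 i.2 t c y) → i.1.1 = far t y := by
      intro i t ht hc
      ext c
      have := hc c
      simp only [far, Finset.mem_filter, Finset.mem_univ, true_and]
      constructor
      · intro hS b hb
        simp only [Cond, if_pos hS] at this
        rcases le_or_gt (b : ℝ) ((i.2 c : I) : ℝ) with h | h
        · exact lt_of_lt_of_le (by linarith [this.1]) (le_abs_self _)
        · exact lt_of_lt_of_le (by linarith [this.2 b hb h]) (neg_le_abs _)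
      · intro hfar
        by_contra hS
        simp only [Cond, if_neg hS] at this
        exact lt_irrefl _ ((hfar _ (i.2 c).2).trans this)
    refine le_trans (Finset.card_le_card_of_injOn (fun i => i.1.1.card)
      (fun i _ => Finset.mem_range.2 (Nat.lt_succ_of_le i.1.2)) ?_)
      (Finset.card_range (d + 1)).le
    intro i hi j hj hij
    simp only [Finset.coe_filter, Finset.mem_univ, true_and] at hi hj
    obtain ⟨t, ht, hti⟩ := hi
    obtain ⟨t', ht', htj⟩ := hj
    have ht0 : 0 < t := lt_trans (hlev_pos _) ht.1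
    have ht0' : 0 < t' := lt_trans (hlev_pos _) ht'.1
    have hsame : i.1.1 = j.1.1 := by
      rw [hS i t ht0 hti, hS j t' ht0' htj]
      have hc : (far t y).card = (far t' y).card := by
        rw [← hS i t ht0 hti, ← hS j t' ht0' htj]
        exact hij
      have hsub : ∀ {r r' : ℝ}, r ≤ r' → far r' y ⊆ far r y := fun {r r'} h c hc =>
        Finset.mem_filter.2 ⟨Finset.mem_univ _,
          fun b hb => lt_of_le_of_lt h ((Finset.mem_filter.1 hc).2 b hb)⟩
      rcases le_total t t' with h | h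
      · exact (Finset.eq_of_subset_of_card_le (hsub h) hc.le).symm
      · exact Finset.eq_of_subset_of_card_le (hsub h) hc.ge
    refine Prod.ext (Subtype.ext hsame) (funext fun c => Subtype.ext ?_)
    have h1 := hti c
    have h2 := htj c
    by_cases hc : c ∈ i.1.1
    · simp only [Cond, if_pos hc, if_pos (hsame ▸ hc)] at h1 h2
      refine Subtype.ext (le_antisymm ?_ ?_)
      · by_contra h
        have := h2.2 _ (i.2 c).2 (not_le.1 h)
        linarith [h1.1]
      · by_contra h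
        have := h1.2 _ (j.2 c).2 (not_le.1 h)
        linarith [h2.1]
    · simp only [Cond, if_neg hc, if_neg (hsame ▸ hc)] at h1 h2
      by_contra h
      have h3 := hsep _ (i.2 c).2 _ (j.2 c).2 h
      have h4 : |((i.2 c : I) : ℝ) - ((j.2 c : I) : ℝ)| < t + t' := by
        rw [abs_lt] at h1 h2 ⊢
        constructor <;> linarith [h1.1, h1.2, h2.1, h2.2]
      linarith [ht.2, ht'.2, hlev_le i.1.1.card, hlev_le j.1.1.card]

/-- Points agreeing closely on one long window, and in a locally constant invariant of high level,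
lie in a common member of an open cover. -/
theorem exists_window [CompactSpace X] {M : ℕ} (h : X ≃ₜ X) (f : C(X, Cube M))
    (e : ℕ → C(X, ℕ)) (he : ∀ {k l : ℕ}, k ≤ l → ∀ x y, e l x = e l y → e k x = e k y)
    (hgen : ∀ x y, (∀ n : ℤ, f (orbitPt h n x) = f (orbitPt h n y)) → (∀ k, e k x = e k y) → x = y)
    {ι : Type*} (U : ι → Set X) (hU : ∀ i, IsOpen (U i)) (hcov : ∀ x, ∃ i, x ∈ U i) :
    ∃ a : ℕ, ∀ x, ∃ i, ∀ x', (∀ j : ℤ, j.natAbs ≤ a → ∀ c,
      dist (f (orbitPt h j x) c) (f (orbitPt h j x') c) < 1 / ((a : ℝ) + 1)) →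
        e a x = e a x' → x' ∈ U i := by
  have hcont : ∀ (j : ℤ) (c : Fin M), Continuous fun x => f (orbitPt h j x) c := fun j c =>
    (continuous_apply c).comp (f.continuous.comp (continuous_orbitPt h j))
  have hloc : ∀ x, ∃ (n : ℕ) (i : ι), ∀ x', (∀ j : ℤ, j.natAbs ≤ n → ∀ c,
      dist (f (orbitPt h j x) c) (f (orbitPt h j x') c) ≤ 2 / ((n : ℝ) + 1)) →
        e n x = e n x' → x' ∈ U i := by
    intro x
    obtain ⟨i, hi⟩ := hcov x
    let O : ℕ → Set X := fun n => e n ⁻¹' {k | e n x ≠ k} ∪ ⋃ j ∈ Finset.Icc (-(n : ℤ)) n, ⋃ c,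
      {x' | 2 / ((n : ℝ) + 1) < dist (f (orbitPt h j x) c) (f (orbitPt h j x') c)}
    have hO : ∀ n, IsOpen (O n) := fun n => ((isOpen_discrete _).preimage (e n).continuous).union
      (isOpen_biUnion fun j _ =>
        isOpen_iUnion fun c => isOpen_lt continuous_const (continuous_const.dist (hcont j c)))
    obtain ⟨F, hF⟩ := (hU i).isClosed_compl.isCompact.elim_finite_subcover O hO fun x' hx' => by
      by_cases hek : ∃ k, e k x ≠ e k x'
      · obtain ⟨k, hk⟩ := hek
        exact Set.mem_iUnion.2 ⟨k, Or.inl hk⟩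
      push Not at hek
      obtain ⟨j, c, hne⟩ : ∃ (j : ℤ) (c : Fin M),
          f (orbitPt h j x) c ≠ f (orbitPt h j x') c := by
        by_contra hall
        push Not at hall
        exact hx' (hgen x x' (fun n => funext (hall n)) hek ▸ hi)
      obtain ⟨n, hn⟩ := exists_nat_gt
        (max (j.natAbs : ℝ) (2 / dist (f (orbitPt h j x) c) (f (orbitPt h j x') c)))
      have hj : j.natAbs ≤ n := Nat.cast_le.1 ((le_max_left _ _).trans hn.le)
      have h2 := (le_max_right _ _).trans_lt hn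
      rw [div_lt_iff₀ (dist_pos.2 hne)] at h2
      refine Set.mem_iUnion.2 ⟨n, Or.inr <| Set.mem_iUnion₂.2 ⟨j, Finset.mem_Icc.2 (by omega),
        Set.mem_iUnion.2 ⟨c, ?_⟩⟩⟩
      simp only [Set.mem_ofPred_eq]
      rw [div_lt_iff₀ (by positivity)]
      have := dist_pos.2 hne
      nlinarith
    refine ⟨F.sup id, i, fun x' hx' hee => ?_⟩
    by_contra hnot
    obtain ⟨n, hn, hxn | hxn⟩ := Set.mem_iUnion₂.1 (hF hnot)
    · exact hxn (he (Finset.le_sup (f := id) hn) x x' hee)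
    obtain ⟨j, hj, c, hc⟩ : ∃ j ∈ Finset.Icc (-(n : ℤ)) n, ∃ c,
        2 / ((n : ℝ) + 1) < dist (f (orbitPt h j x) c) (f (orbitPt h j x') c) := by
      simpa using hxn
    have hle : n ≤ F.sup id := Finset.le_sup (f := id) hn
    have hjn := Finset.mem_Icc.1 hj
    refine absurd (hx' j (by omega) c) (not_le.2 (lt_of_le_of_lt ?_ hc))
    exact div_le_div_of_nonneg_left two_pos.le (by positivity)
      (by have : (n : ℝ) ≤ (F.sup id : ℕ) := Nat.cast_le.2 hle; linarith)
  choose n i hloc using hloc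
  let Q : X → Set X := fun x₀ => e (n x₀) ⁻¹' {e (n x₀) x₀} ∩ ⋂ j ∈ Finset.Icc (-(n x₀ : ℤ)) (n x₀), ⋂ c,
    {x | dist (f (orbitPt h j x₀) c) (f (orbitPt h j x) c) < 1 / ((n x₀ : ℝ) + 1)}
  have hQ : ∀ x₀, IsOpen (Q x₀) := fun x₀ =>
    ((isOpen_discrete _).preimage (e (n x₀)).continuous).inter (isOpen_biInter_finset fun j _ =>
      isOpen_iInter_of_finite fun c =>
        isOpen_lt (continuous_const.dist (hcont j c)) continuous_const)
  obtain ⟨F, hF⟩ := isCompact_univ.elim_finite_subcover Q hQ fun x _ =>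
    Set.mem_iUnion.2 ⟨x, rfl, Set.mem_iInter₂.2 fun j _ => Set.mem_iInter.2 fun c => by
      simp only [Set.mem_ofPred_eq, dist_self]
      positivity⟩
  refine ⟨F.sup n, fun x => ?_⟩
  obtain ⟨x₀, hx₀, hxe, hxQ⟩ := Set.mem_iUnion₂.1 (hF (Set.mem_univ x))
  have hle : n x₀ ≤ F.sup n := Finset.le_sup hx₀
  refine ⟨i x₀, fun x' hx' hee => hloc x₀ x' (fun j hj c => ?_)
    ((show e (n x₀) x = e (n x₀) x₀ from hxe).symm.trans (he hle x x' hee))⟩
  have h1 : dist (f (orbitPt h j x₀) c) (f (orbitPt h j x) c) < 1 / ((n x₀ : ℝ) + 1) :=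
    Set.mem_iInter.1 (Set.mem_iInter₂.1 hxQ j (Finset.mem_Icc.2 (by omega))) c
  have h2 := hx' j (hj.trans hle) c
  have h3 : (1 : ℝ) / (((F.sup n : ℕ) : ℝ) + 1) ≤ 1 / ((n x₀ : ℝ) + 1) := Nat.one_div_le_one_div hle
  have h4 : (2 : ℝ) / ((n x₀ : ℝ) + 1) = 1 / ((n x₀ : ℝ) + 1) + 1 / ((n x₀ : ℝ) + 1) := by ring
  linarith [dist_triangle (f (orbitPt h j x₀) c) (f (orbitPt h j x) c) (f (orbitPt h j x') c)]

theorem card_periodic_le {P : ℕ} (hP : 0 < P) (J : Finset ℕ) (q : ℤ) (L : ℕ) :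
    ((Finset.range L).filter fun i : ℕ => (((i : ℤ) + q) % (P : ℤ)).toNat ∈ J).card ≤
      J.card * (L / P + 2) := by
  have hP' : (0 : ℤ) < P := by exact_mod_cast hP
  obtain ⟨r, hr⟩ := Int.eq_ofNat_of_zero_le (Int.emod_nonneg q hP'.ne')
  have hrP : r < P := by have := Int.emod_lt_of_pos q hP'; omega
  have key : ∀ i : ℕ, (((i : ℤ) + q) % (P : ℤ)).toNat = (i + r) % P := fun i => by
    rw [← Int.add_emod_emod, hr, ← Nat.cast_add, ← Int.natCast_mod, Int.toNat_natCast]
  rw [← Finset.card_range (L / P + 2), ← Finset.card_product]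
  refine Finset.card_le_card_of_injOn (fun i => ((i + r) % P, (i + r) / P)) (fun i hi => ?_)
    fun i _ i' _ he => ?_
  · obtain ⟨hiL, hiJ⟩ := Finset.mem_filter.1 hi
    rw [key] at hiJ
    have : (i + r) / P ≤ (L + P) / P :=
      Nat.div_le_div_right (by have := Finset.mem_range.1 hiL; omega)
    rw [Nat.add_div_right _ hP] at this
    exact Finset.mem_product.2 ⟨hiJ, Finset.mem_range.2 (show (i + r) / P < L / P + 2 by omega)⟩
  · simp only [Prod.mk.injEq] at he
    have h1 := Nat.div_add_mod (i + r) P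
    have h2 := Nat.div_add_mod (i' + r) P
    rw [he.1, he.2] at h1
    omega

theorem refineOrder_join_le [CompactSpace X] {M : ℕ} (h : X ≃ₜ X) (f : C(X, Cube M)) {d : ℕ}
    (hd : ∀ x, (Finset.univ.filter fun c => f x c ≠ 0 ∧ f x c ≠ 1).card ≤ d)
    (e : ℕ → C(X, ℕ)) (he : ∀ {k l : ℕ}, k ≤ l → ∀ x y, e l x = e l y → e k x = e k y)
    (heq : ∀ k x y, e k x = e k y → e k (h x) = e k (h y))
    (hgen : ∀ x y, (∀ n : ℤ, f (orbitPt h n x) = f (orbitPt h n y)) → (∀ k, e k x = e k y) → x = y)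
    {P : ℕ} (hP : 0 < P) (J : Finset ℕ) (w : ℕ → Cube M)
    (hblock : ∀ x, ∃ p : ℤ, ∀ n : ℤ, ((n - p) % (P : ℤ)).toNat ∉ J →
      f (orbitPt h n x) = w ((n - p) % (P : ℤ)).toNat)
    {ι : Type*} (U : ι → Set X) (hU : ∀ i, IsOpen (U i)) (hcov : ∀ x, ∃ i, x ∈ U i) :
    ∃ a : ℕ, ∀ N, refineOrder (joinCover h U N) ≤ d * (J.card * ((N + 2 * a) / P + 2)) := by
  obtain ⟨a, ha⟩ := exists_window h f e he hgen U hU hcov
  refine ⟨a, fun N => ?_⟩
  let η : ℝ := 1 / (3 * ((a : ℝ) + 1))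
  have hη : 0 < η := by positivity
  obtain ⟨K, hK⟩ := exists_nat_gt (1 / η)
  have hK0 : (0 : ℝ) < K := lt_trans (by positivity) hK
  let G : Finset I := (Finset.range (K + 1)).image
      (fun k : ℕ => Set.projIcc 0 1 zero_le_one ((k : ℝ) / K)) ∪
    (Finset.range P ×ˢ Finset.univ).image fun q : ℕ × Fin M => w q.1 q.2
  have h0 : (0 : I) ∈ G := Finset.mem_union_left _ (Finset.mem_image.2
    ⟨0, Finset.mem_range.2 (Nat.succ_pos _), by simp⟩)
  have h1G : (1 : I) ∈ G := Finset.mem_union_left _ (Finset.mem_image.2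
    ⟨K, Finset.mem_range.2 (Nat.lt_succ_self _), Subtype.ext (by simp [div_self hK0.ne'])⟩)
  have hgrid : ∀ b ∈ G, (b : ℝ) < 1 → ∃ b' ∈ G, (b : ℝ) < b' ∧ (b' : ℝ) ≤ b + η := by
    intro b _ hb
    have hbK : (b : ℝ) * K < K := mul_lt_of_lt_one_left hK0 hb
    have hfl : ⌊(b : ℝ) * K⌋₊ < K :=
      (Nat.floor_lt (mul_nonneg b.2.1 hK0.le)).2 hbK
    have h1 := Nat.floor_le (mul_nonneg b.2.1 hK0.le)
    have h2 := Nat.lt_floor_add_one ((b : ℝ) * K)
    have h3 : ((⌊(b : ℝ) * K⌋₊ : ℝ) + 1) ≤ K := by exact_mod_cast hfl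
    have hmem : (((⌊(b : ℝ) * K⌋₊ + 1 : ℕ) : ℝ) / K) ∈ Set.Icc (0 : ℝ) 1 :=
      ⟨by positivity, by rw [div_le_one hK0]; push_cast; exact h3⟩
    refine ⟨_, Finset.mem_union_left _ (Finset.mem_image_of_mem _
      (Finset.mem_range.2 (Nat.succ_lt_succ hfl))), ?_, ?_⟩
    · rw [Set.projIcc_of_mem _ hmem, lt_div_iff₀ hK0]
      push_cast
      exact h2
    · rw [Set.projIcc_of_mem _ hmem, div_le_iff₀ hK0]
      rw [div_lt_iff₀ hη] at hK
      push_cast
      nlinarith
  let κ := Fin (N + 2 * a) × Fin M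
  let Ψ : X → κ → I := fun x q => f (orbitPt h ((q.1 : ℤ) - a) x) q.2
  have hΨ : Continuous Ψ := continuous_pi fun q =>
    (continuous_apply q.2).comp (f.continuous.comp (continuous_orbitPt h _))
  obtain ⟨T, _, V, hVo, hVmesh, hV⟩ := exists_skeleton_cover κ hη G h0 hgrid
    (d * (J.card * ((N + 2 * a) / P + 2)))
  have hoff : ∀ x, (Finset.univ.filter fun q => Ψ x q ∉ G).card ≤
      d * (J.card * ((N + 2 * a) / P + 2)) := by
    intro x
    obtain ⟨p, hp⟩ := hblock x
    refine le_trans (Finset.card_le_mul_card_image_of_maps_to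
      (f := fun q : κ => (q.1 : ℕ)) (t := (Finset.range (N + 2 * a)).filter fun i : ℕ =>
        (((i : ℤ) + (-(a : ℤ) - p)) % (P : ℤ)).toNat ∈ J) (fun q hq => ?_) d fun i _ => ?_)
      (Nat.mul_le_mul_left _ (card_periodic_le hP J _ _))
    · refine Finset.mem_filter.2 ⟨Finset.mem_range.2 q.1.2, ?_⟩
      by_contra hnot
      refine (Finset.mem_filter.1 hq).2 (Finset.mem_union_right _ ?_)
      have e : ((q.1 : ℤ) - a) - p = (q.1 : ℤ) + (-(a : ℤ) - p) := by ring
      have := hp ((q.1 : ℤ) - a) (by rw [e]; exact hnot)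
      refine Finset.mem_image.2 ⟨((((q.1 : ℤ) - a - p) % (P : ℤ)).toNat, q.2),
        Finset.mem_product.2 ⟨Finset.mem_range.2 ?_, Finset.mem_univ _⟩, (congrFun this q.2).symm⟩
      have := Int.emod_lt_of_pos ((q.1 : ℤ) - a - p) (show (0 : ℤ) < P by exact_mod_cast hP)
      omega
    · refine le_trans (Finset.card_le_card_of_injOn (fun q : κ => q.2) (fun q hq => ?_) ?_)
        (hd (orbitPt h ((i : ℤ) - a) x))
      · obtain ⟨hqG, rfl⟩ := Finset.mem_filter.1 hq
        have hG := (Finset.mem_filter.1 hqG).2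
        refine Finset.mem_filter.2 ⟨Finset.mem_univ _, fun h0' => hG ?_, fun h1' => hG ?_⟩
        · show f (orbitPt h _ x) q.2 ∈ G
          rw [h0']
          exact h0
        · show f (orbitPt h _ x) q.2 ∈ G
          rw [h1']
          exact h1G
      · intro q hq q' hq' he
        exact Prod.ext (Fin.ext ((Finset.mem_filter.1 hq).2.trans (Finset.mem_filter.1 hq').2.symm))
          he
  have hfin : (Set.range (e a)).Finite :=
    (isCompact_range (e a).continuous).finite_of_discrete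
  let W : Finset (Set X) := (((Finset.univ : Finset T) ×ˢ hfin.toFinset).filter fun i =>
    (Ψ ⁻¹' V i.1 ∩ e a ⁻¹' {i.2}).Nonempty).image fun i => Ψ ⁻¹' V i.1 ∩ e a ⁻¹' {i.2}
  refine Nat.sInf_le ⟨W, ⟨fun v hv => ?_, fun x => ?_⟩, fun x => ?_⟩
  · obtain ⟨⟨i, t⟩, hi, rfl⟩ := Finset.mem_image.1 hv
    refine ⟨((hVo i).preimage hΨ).inter ((isOpen_discrete _).preimage (e a).continuous), ?_⟩
    obtain ⟨x₀, hx₀, hx₀e⟩ := (Finset.mem_filter.1 hi).2
    choose s hs using fun j : Fin N => ha ((⇑h)^[(j : ℕ)] x₀)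
    refine ⟨s, fun x hx => Set.mem_iInter.2 fun j => hs j _ (fun l hl c => ?_) ?_⟩
    rotate_left
    · have key : ∀ n : ℕ, e a ((⇑h)^[n] x₀) = e a ((⇑h)^[n] x) := fun n => by
        induction n with
        | zero => exact (show e a x₀ = t from hx₀e).trans (show e a x = t from hx.2).symm
        | succ n ih => simp only [Function.iterate_succ_apply']; exact heq a _ _ ih
      exact key j
    obtain ⟨k, hk⟩ := Int.eq_ofNat_of_zero_le (show (0 : ℤ) ≤ l + (j : ℕ) + a by omega)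
    have hkN : k < N + 2 * a := by have := j.2; omega
    have hm := hVmesh i _ hx₀ _ hx.1 (⟨k, hkN⟩, c)
    have ek : ((k : ℤ) - a) = l + (j : ℕ) := by omega
    simp only [Ψ, ek] at hm
    rw [← orbitPt_natCast, ← orbitPt_natCast, ← orbitPt_add, ← orbitPt_add, Subtype.dist_eq,
      Real.dist_eq]
    refine lt_of_le_of_lt hm ?_
    simp only [η]
    rw [mul_one_div, div_lt_div_iff₀ (by positivity) (by positivity)]
    linarith [show (0 : ℝ) ≤ a from Nat.cast_nonneg a]
  · obtain ⟨i, hi⟩ := (hV _ (hoff x)).1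
    exact ⟨_, Finset.mem_image.2 ⟨(i, e a x), Finset.mem_filter.2 ⟨Finset.mem_product.2
      ⟨Finset.mem_univ _, hfin.mem_toFinset.2 ⟨x, rfl⟩⟩, x, hi, rfl⟩, rfl⟩, hi, rfl⟩
  · refine le_trans ?_ (hV _ (hoff x)).2
    refine le_trans (Finset.card_le_card
      (t := (Finset.univ.filter fun i => Ψ x ∈ V i).image fun i => Ψ ⁻¹' V i ∩ e a ⁻¹' {e a x})
      fun v hv => ?_)
      Finset.card_image_le
    obtain ⟨hvW, hxv⟩ := Finset.mem_filter.1 hv
    obtain ⟨⟨i, t⟩, -, rfl⟩ := Finset.mem_image.1 hvW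
    refine Finset.mem_image.2 ⟨i, Finset.mem_filter.2 ⟨Finset.mem_univ i, hxv.1⟩, ?_⟩
    have ht : e a x = t := hxv.2
    rw [ht]

/-- Periodic constraints leaving the share `|J| / P` of the positions free, the values having at
most `d` coordinates off `0` and `1`, bound the mean dimension. -/
theorem meanDim_le_dim [CompactSpace X] {M : ℕ} (h : X ≃ₜ X) (f : C(X, Cube M)) {d : ℕ}
    (hd : ∀ x, (Finset.univ.filter fun c => f x c ≠ 0 ∧ f x c ≠ 1).card ≤ d)
    (e : ℕ → C(X, ℕ)) (he : ∀ {k l : ℕ}, k ≤ l → ∀ x y, e l x = e l y → e k x = e k y)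
    (heq : ∀ k x y, e k x = e k y → e k (h x) = e k (h y))
    (hgen : ∀ x y, (∀ n : ℤ, f (orbitPt h n x) = f (orbitPt h n y)) → (∀ k, e k x = e k y) → x = y)
    {P : ℕ} (hP : 0 < P) (J : Finset ℕ) (w : ℕ → Cube M)
    (hblock : ∀ x, ∃ p : ℤ, ∀ n : ℤ, ((n - p) % (P : ℤ)).toNat ∉ J →
      f (orbitPt h n x) = w ((n - p) % (P : ℤ)).toNat) :
    meanDim h ≤ ENNReal.ofReal ((d : ℝ) * J.card / P) := by
  refine iSup_le fun k => iSup_le fun U => iSup_le fun hU => iSup_le fun hcov => ?_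
  obtain ⟨a, ha⟩ := refineOrder_join_le h f hd e he heq hgen hP J w hblock U hU hcov
  refine ENNReal.le_of_forall_pos_le_add fun ε hε _ => ?_
  have hm0 : (0 : ℝ) ≤ (d : ℝ) * J.card / P := by positivity
  rw [← ENNReal.ofReal_coe_nnreal, ← ENNReal.ofReal_add hm0 ε.coe_nonneg]
  refine limsup_le_of_le (by isBoundedDefault) ?_
  have hPr : (0 : ℝ) < P := by exact_mod_cast hP
  obtain ⟨N₁, hN₁⟩ := exists_nat_gt
    ((d : ℝ) * J.card * (2 * a / P + 2) / (ε : ℝ))
  refine eventually_atTop.2 ⟨N₁ + 1, fun N hN => ?_⟩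
  rw [ENNReal.div_le_iff_le_mul (Or.inl (by exact_mod_cast (show N ≠ 0 by omega)))
    (Or.inl (ENNReal.natCast_ne_top N)), ← ENNReal.ofReal_natCast, ← ENNReal.ofReal_natCast N,
    ← ENNReal.ofReal_mul (add_nonneg hm0 ε.coe_nonneg)]
  refine ENNReal.ofReal_le_ofReal (le_trans (Nat.cast_le.2 (ha N)) ?_)
  have hdiv : (((N + 2 * a) / P : ℕ) : ℝ) ≤ ((N : ℝ) + 2 * a) / P := by
    refine le_trans Nat.cast_div_le ?_
    push_cast
    rfl
  have hNN : (d : ℝ) * J.card * (2 * a / P + 2) ≤ N * (ε : ℝ) := by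
    rw [div_lt_iff₀ (by exact_mod_cast hε)] at hN₁
    have : (N₁ : ℝ) ≤ N := Nat.cast_le.2 (by omega)
    nlinarith [ε.2]
  push_cast
  calc (d : ℝ) * (J.card * ((((N + 2 * a) / P : ℕ) : ℝ) + 2))
      ≤ (d : ℝ) * (J.card * (((N : ℝ) + 2 * a) / P + 2)) := by
        gcongr
    _ = (d : ℝ) * J.card / P * N + (d : ℝ) * J.card * (2 * a / P + 2) := by ring
    _ ≤ _ := by linarith

/-- Periodic constraints leaving the share `|J| / P` of the coordinates free bound the mean
dimension. -/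
theorem meanDim_le [CompactSpace X] {M : ℕ} (h : X ≃ₜ X) (f : C(X, Cube M))
    (e : ℕ → C(X, ℕ)) (he : ∀ {k l : ℕ}, k ≤ l → ∀ x y, e l x = e l y → e k x = e k y)
    (heq : ∀ k x y, e k x = e k y → e k (h x) = e k (h y))
    (hgen : ∀ x y, (∀ n : ℤ, f (orbitPt h n x) = f (orbitPt h n y)) → (∀ k, e k x = e k y) → x = y)
    {P : ℕ} (hP : 0 < P) (J : Finset ℕ) (w : ℕ → Cube M)
    (hblock : ∀ x, ∃ p : ℤ, ∀ n : ℤ, ((n - p) % (P : ℤ)).toNat ∉ J →
      f (orbitPt h n x) = w ((n - p) % (P : ℤ)).toNat) :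
    meanDim h ≤ ENNReal.ofReal ((M : ℝ) * J.card / P) :=
  meanDim_le_dim h f (fun _ => (Finset.card_filter_le _ _).trans (by simp)) e he heq hgen hP J w
    hblock

/-! ### The cube subshifts -/

/-- The density of the coordinates that stay free. -/
def cubeRate (M : ℕ) (ρ : ℝ) : ℝ :=
  (M : ℝ) * ⨅ k, ((level M ρ k).J.card : ℝ) / (level M ρ k).N

theorem cubeRate_bddBelow (M : ℕ) (ρ : ℝ) :
    BddBelow (Set.range fun k => ((level M ρ k).J.card : ℝ) / (level M ρ k).N) :=
  ⟨0, by rintro _ ⟨k, rfl⟩; positivity⟩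

theorem cubeRate_bounds {M : ℕ} {ρ : ℝ} (h1 : ρ < 1) :
    ρ * M ≤ cubeRate M ρ ∧ cubeRate M ρ ≤ M := by
  constructor
  · rw [cubeRate, mul_comm]
    refine mul_le_mul_of_nonneg_left (le_ciInf fun k => ?_) (Nat.cast_nonneg _)
    have hN : (0 : ℝ) < (level M ρ k).N := by exact_mod_cast (level M ρ k).pos
    rw [le_div_iff₀ hN]
    refine le_trans ?_ (level_density h1 k)
    have : (0 : ℝ) ≤ (1 - ρ) / ((k : ℝ) + 1) := div_nonneg (by linarith) (by positivity)
    nlinarith
  · refine mul_le_of_le_one_right (Nat.cast_nonneg _) (ciInf_le_of_le (cubeRate_bddBelow M ρ) 0 ?_)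
    simp [level]

/-- Minimal cube subshifts whose mean dimension is exactly their cube rate `m`, for values of `m`
arbitrarily close to every positive integer `M` from below. -/
theorem exists_cubeSystem_meanDim {M : ℕ} {ρ : ℝ} (hM : 0 < M) (h0 : 0 ≤ ρ) (h1 : ρ < 1) :
    ∃ (X : Type) (_ : TopologicalSpace X) (_ : CompactSpace X) (_ : T2Space X)
      (_ : TopologicalSpace.MetrizableSpace X) (_ : Infinite X) (h : X ≃ₜ X) (f : C(X, Cube M))
      (m : ℝ),
      (∀ x, Dense (Set.range fun n : ℤ => orbitPt h n x)) ∧ ρ * M ≤ m ∧ m ≤ M ∧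
      meanDim h = ENNReal.ofReal m ∧
      ∀ N₀ : ℕ, ∃ N ≥ N₀, ∃ J ⊆ Finset.range N, m * N ≤ J.card * M ∧
        ∃ (w : ℕ → Cube M) (lift : C(↥J → Cube M, X)), ∀ z,
          (∀ i (hi : i ∈ J), f ((⇑h)^[i] (lift z)) = z ⟨i, hi⟩) ∧
          ∀ i < N, i ∉ J → f ((⇑h)^[i] (lift z)) = w i := by
  have : CompactSpace (cubeSpace M ρ) := isCompact_iff_compactSpace.1
    isClosed_cubeSpace.isCompact
  let f : C(cubeSpace M ρ, Cube M) :=
    ⟨fun x => x.1 0, (continuous_apply 0).comp continuous_subtype_val⟩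
  have hf : ∀ (n : ℤ) (x : cubeSpace M ρ), f (orbitPt cubeShift n x) = x.1 n := fun n x => by
    rw [orbitPt_cubeShift]
    simp [f]
  have hcube : ∀ N₀ : ℕ, ∃ N ≥ N₀, ∃ J ⊆ Finset.range N, cubeRate M ρ * N ≤ J.card * M ∧
      ∃ (w : ℕ → Cube M) (lift : C(↥J → Cube M, cubeSpace M ρ)), ∀ z,
        (∀ i (hi : i ∈ J), f ((⇑cubeShift)^[i] (lift z)) = z ⟨i, hi⟩) ∧
        ∀ i < N, i ∉ J → f ((⇑cubeShift)^[i] (lift z)) = w i := by
    intro N₀
    refine ⟨(level M ρ N₀).N, (level_grow N₀).le, (level M ρ N₀).J, (level M ρ N₀).subset, ?_,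
      (level M ρ N₀).w, ⟨cubeLift N₀, continuous_cubeLift N₀⟩, fun z => ⟨?_, ?_⟩⟩
    · have hN : (0 : ℝ) < (level M ρ N₀).N := by exact_mod_cast (level M ρ N₀).pos
      have h2 := mul_le_mul_of_nonneg_left (ciInf_le (cubeRate_bddBelow M ρ) N₀)
        (Nat.cast_nonneg (α := ℝ) M)
      rw [mul_div_assoc', le_div_iff₀ hN] at h2
      rw [mul_comm ((level M ρ N₀).J.card : ℝ)]
      exact h2
    · intro i hi
      exact (iterate_cubeShift i _).trans (liftVal_free N₀ z hi)
    · intro i hi hJ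
      exact (iterate_cubeShift i _).trans (liftVal_fixed N₀ z hi hJ)
  refine ⟨cubeSpace M ρ, inferInstance, inferInstance, inferInstance, inferInstance,
    cubeSpace_infinite hM h0 h1, cubeShift, f, cubeRate M ρ, cubeShift_minimal,
    (cubeRate_bounds h1).1, (cubeRate_bounds h1).2, le_antisymm ?_ ?_, hcube⟩
  · have key : ∀ k, meanDim (cubeShift (M := M) (ρ := ρ)) ≤
        ENNReal.ofReal ((M : ℝ) * (level M ρ k).J.card / (level M ρ k).N) := fun k =>
      meanDim_le cubeShift f (fun _ => ContinuousMap.const _ 0) (fun _ _ _ _ => rfl)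
        (fun _ _ _ _ => rfl) (fun x y hxy _ => Subtype.ext (funext fun n => by
        rw [← hf n x, ← hf n y, hxy n])) (level M ρ k).pos _ (level M ρ k).w fun x => by
        obtain ⟨p, hp⟩ := Set.mem_iInter.1 x.2 k
        exact ⟨p, fun n hn => (hf n x).trans (hp n hn)⟩
    refine ENNReal.le_of_forall_pos_le_add fun ε hε _ => ?_
    have hMr : (0 : ℝ) < M := by exact_mod_cast hM
    obtain ⟨k, hk⟩ := exists_lt_of_ciInf_lt
      (show (⨅ k, ((level M ρ k).J.card : ℝ) / (level M ρ k).N) <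
        (⨅ k, ((level M ρ k).J.card : ℝ) / (level M ρ k).N) + (ε : ℝ) / M by
          have : (0 : ℝ) < (ε : ℝ) / M := div_pos (by exact_mod_cast hε) hMr
          linarith)
    refine (key k).trans ?_
    rw [← ENNReal.ofReal_coe_nnreal]
    refine le_trans (ENNReal.ofReal_le_ofReal ?_) ENNReal.ofReal_add_le
    have h2 := mul_le_mul_of_nonneg_left hk.le hMr.le
    rw [mul_add, mul_div_cancel₀ _ hMr.ne', mul_div_assoc'] at h2
    exact h2
  · refine meanDim_ge cubeShift f fun N₀ => ?_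
    obtain ⟨N, hN, J, hJ, hc, _w, lift, hl⟩ := hcube N₀
    exact ⟨N, hN, J, hJ, hc, lift, fun z => (hl z).1⟩

end

end P093
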