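import Vale.Agent.P093.Defs
import Vale.Agent.P093.Gap.MeanDim

/-!
# P093: cube windows bound the mean dimension from below
-/

namespace Vale.Agent.P093

open Filter
open scoped Classical unitInterval ENNReal

noncomputable section

/-- Cube windows of density `m` give mean dimension at least `m`. -/
theorem meanDim_ge_of_windows {X : Type} [TopologicalSpace X] [CompactSpace X] {h : X ≃ₜ X}
    {M : ℕ} {f : C(X, Fin M → ℝ)} {m : ℝ} (hw : CubeWindows h f m) :
    ENNReal.ofReal m ≤ _root_.P093.meanDim h := by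
  let e := Fintype.equivFin (Fin M → Bool)
  let U : Fin (Fintype.card (Fin M → Bool)) → Set X :=
    fun i => {x | ∀ c, f x c ≠ if e.symm i c then 1 else 0}
  have hU : ∀ i, IsOpen (U i) := fun i => by
    simp only [U, Set.ofPred_forall]
    exact isOpen_iInter_of_finite fun c =>
      isOpen_ne.preimage ((continuous_apply c).comp f.continuous)
  have hcov : ∀ x, ∃ i, x ∈ U i := fun x => by
    refine ⟨e fun c => decide (f x c ≠ 1), fun c => ?_⟩
    rw [Equiv.symm_apply_apply]
    by_cases hc : f x c = 1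
    · simp [hc]
    · simp [hc]
  refine le_iSup_of_le _ (le_iSup_of_le U (le_iSup_of_le hU (le_iSup_of_le hcov ?_)))
  refine le_limsup_of_frequently_le' (frequently_atTop.2 fun N₀ => ?_)
  obtain ⟨N, hN, J, hJm, σc, hfree, -⟩ := hw (max N₀ 1)
  refine ⟨N, le_trans (le_max_left _ _) hN, ?_⟩
  have hN0 : 0 < N := lt_of_lt_of_le one_pos (le_trans (le_max_right _ _) hN)
  rw [ENNReal.le_div_iff_mul_le (Or.inl (by exact_mod_cast hN0.ne'))
    (Or.inl (ENNReal.natCast_ne_top N)), ← ENNReal.ofReal_natCast N,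
    ← ENNReal.ofReal_mul' (Nat.cast_nonneg _)]
  refine (ENNReal.ofReal_le_ofReal (hJm.trans ?_)).trans_eq (ENNReal.ofReal_natCast _)
  refine Nat.cast_le.2 (le_csInf ?_ ?_)
  · refine ⟨_, Finset.univ.image (_root_.P093.joinCover h U N), ⟨fun w hw' => ?_, fun x => ?_⟩,
      fun x => (Finset.card_filter_le _ _).trans (Nat.le_succ _)⟩
    · obtain ⟨s, -, rfl⟩ := Finset.mem_image.1 hw'
      exact ⟨isOpen_iInter_of_finite fun j => (hU _).preimage (h.continuous.iterate _), s,
        subset_rfl⟩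
    · choose s hs using fun j : Fin N => hcov ((⇑h)^[(j : ℕ)] x)
      exact ⟨_, Finset.mem_image_of_mem _ (Finset.mem_univ s), Set.mem_iInter.2 hs⟩
  rintro d ⟨W, ⟨hW, hWcov⟩, hord⟩
  obtain ⟨q⟩ : Nonempty (↥J ≃ Fin J.card) := ⟨Fintype.equivFinOfCardEq (by simp)⟩
  let g : C(Fin J.card → I, X) :=
    σc.comp ⟨fun u p => u (q p), continuous_pi fun p => continuous_apply _⟩
  obtain ⟨u, hu⟩ := _root_.P093.exists_mem_many (fun w : ↥W => g ⁻¹' (w : Set X))
    (fun w => (hW w w.2).1.preimage g.continuous)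
    (fun u => by
      obtain ⟨w, hw', hx⟩ := hWcov (g u)
      exact ⟨⟨w, hw'⟩, hx⟩)
    (fun w k => by
      rintro ⟨⟨a, ha, ha0⟩, b, hb, hb1⟩
      obtain ⟨s, hs⟩ := (hW w w.2).2
      obtain ⟨p, rfl⟩ := q.surjective k
      have ha' := Set.mem_iInter.1 (hs ha) p.1.1 p.1.2
      have hb' := Set.mem_iInter.1 (hs hb) p.1.1 p.1.2
      simp only [g, ContinuousMap.comp_apply, hfree] at ha' hb'
      cases hb2 : e.symm (s p.1.1) p.1.2
      · rw [hb2] at ha'
        exact ha' (by simp [ha0])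
      · rw [hb2] at hb'
        exact hb' (by simp [hb1]))
  have h1 : (Finset.univ.filter fun w : ↥W => u ∈ g ⁻¹' (w : Set X)).card ≤
      (W.filter fun w => g u ∈ w).card :=
    Finset.card_le_card_of_injOn Subtype.val
      (fun w hw' => Finset.mem_filter.2 ⟨w.2, (Finset.mem_filter.1 hw').2⟩)
      Subtype.val_injective.injOn
  have h2 := hord (g u)
  omega

end

end Vale.Agent.P093
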