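import Mathlib

/-!
# P093: open sets of uniform frequency in a minimal system

For a minimal homeomorphism of an infinite compact Hausdorff space and `0 ≤ s ≤ 1` there are open sets
which every long window of every orbit meets with frequency `s` up to `ε`: weighted markers, and
inside the cell of a marker a Sturmian pattern around it.
-/

namespace P093

open scoped Classical

noncomputable section

variable {X : Type*} [TopologicalSpace X]

/-- The iterates of a homeomorphism, indexed by the integers. -/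
def orbitPt (h : X ≃ₜ X) (n : ℤ) (x : X) : X := (h.toEquiv ^ n) x

theorem orbitPt_zero (h : X ≃ₜ X) (x : X) : orbitPt h 0 x = x := by simp [orbitPt]

theorem orbitPt_add (h : X ≃ₜ X) (m n : ℤ) (x : X) :
    orbitPt h (m + n) x = orbitPt h m (orbitPt h n x) := by
  simp [orbitPt, zpow_add]

theorem orbitPt_natCast (h : X ≃ₜ X) (n : ℕ) (x : X) : orbitPt h n x = (⇑h)^[n] x := by
  simp [orbitPt, Equiv.Perm.coe_pow]

theorem continuous_orbitPt (h : X ≃ₜ X) (n : ℤ) : Continuous (orbitPt h n) := by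
  induction n with
  | zero => simpa [funext fun x => orbitPt_zero h x] using continuous_id'
  | succ i hi =>
    have : orbitPt h ((i : ℤ) + 1) = orbitPt h i ∘ h := funext fun x => by
      simp [orbitPt, zpow_add]
    rw [this]
    exact hi.comp h.continuous
  | pred i hi =>
    have : orbitPt h (-(i : ℤ) - 1) = orbitPt h (-(i : ℤ)) ∘ h.symm := funext fun x => by
      simp [orbitPt, sub_eq_add_neg, zpow_add]
    rw [this]
    exact hi.comp h.symm.continuous

/-- A continuous marker function: every orbit sees a value above one half in every window of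
radius `M`, and positive values are at mutual distance at least `L`. -/
theorem exists_marker [CompactSpace X] [T2Space X] [Infinite X] (h : X ≃ₜ X)
    (hmin : ∀ x, Dense (Set.range fun n : ℤ => orbitPt h n x)) (L : ℕ) :
    ∃ (φ : C(X, ℝ)) (M : ℕ), (∀ y, 0 ≤ φ y) ∧ (∀ x, ∃ k : ℤ, |k| ≤ M ∧ 1 / 2 < φ (orbitPt h k x)) ∧
      ∀ x (c c' : ℤ), 0 < φ (orbitPt h c x) → 0 < φ (orbitPt h c' x) → c ≠ c' →
        (L : ℤ) ≤ |c - c'| := by
  obtain ⟨x0⟩ := (inferInstance : Nonempty X)
  have free : ∀ n : ℤ, 0 < n → orbitPt h n x0 ≠ x0 := by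
    intro n hn hfix
    have hp : ∀ q : ℤ, orbitPt h (n * q) x0 = x0 := fun q => by
      simp only [orbitPt, zpow_mul]
      exact Function.IsFixedPt.perm_zpow hfix q
    have hrange : Set.range (fun m : ℤ => orbitPt h m x0) ⊆
        (fun m : ℤ => orbitPt h m x0) '' ↑(Finset.Ico 0 n) := by
      rintro _ ⟨m, rfl⟩
      refine ⟨m % n, ?_, ?_⟩
      · simp [Int.emod_nonneg m hn.ne', Int.emod_lt_of_pos m hn]
      · show orbitPt h (m % n) x0 = orbitPt h m x0
        conv_rhs => rw [← Int.emod_add_mul_ediv m n, orbitPt_add, hp]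
    have hfin : (Set.range fun m : ℤ => orbitPt h m x0).Finite :=
      (Set.Finite.image _ (Finset.finite_toSet _)).subset hrange
    have huniv := (hmin x0).closure_eq
    rw [hfin.isClosed.closure_eq] at huniv
    exact Set.infinite_univ (huniv ▸ hfin)
  have sep : ∀ n : ℕ, ∃ V : Set X, IsOpen V ∧ x0 ∈ V ∧ (1 ≤ n → ∀ y ∈ V, orbitPt h n y ∉ V) := by
    intro n
    by_cases hn : 1 ≤ n
    · obtain ⟨A, B, hA, hB, hxA, hxB, hAB⟩ := t2_separation (free n (by omega)).symm
      refine ⟨A ∩ orbitPt h n ⁻¹' B, hA.inter (hB.preimage (continuous_orbitPt h n)),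
        ⟨hxA, hxB⟩, fun _ y hy hy' => Set.disjoint_left.1 hAB hy'.1 hy.2⟩
    · exact ⟨Set.univ, isOpen_univ, trivial, fun h => absurd h hn⟩
  choose V hVo hxV hVd using sep
  let W : Set X := ⋂ n ∈ Finset.range (L + 1), V n
  have hWo : IsOpen W := isOpen_biInter_finset fun n _ => hVo n
  have hxW : x0 ∈ W := Set.mem_iInter₂.2 fun n _ => hxV n
  obtain ⟨φ, hφ0, hφ1, hφI⟩ := exists_continuous_zero_one_of_isClosed hWo.isClosed_compl
    (isClosed_singleton (x := x0)) (Set.disjoint_singleton_right.2 (by simpa using hxW))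
  have hpos : ∀ y, 0 < φ y → y ∈ W := fun y hy => by
    by_contra hc
    have := hφ0 hc
    simp only [Pi.zero_apply] at this
    linarith
  let O : Set X := {y | 1 / 2 < φ y}
  have hO : IsOpen O := isOpen_lt continuous_const φ.continuous
  have hxO : x0 ∈ O := by
    have := hφ1 (Set.mem_singleton x0)
    simp only [O, Set.mem_ofPred_eq, this, Pi.one_apply]
    norm_num
  have hcov : Set.univ ⊆ ⋃ n : ℤ, orbitPt h n ⁻¹' O := fun x _ => by
    obtain ⟨y, hyO, ⟨n, rfl⟩⟩ := (hmin x).inter_open_nonempty O hO ⟨x0, hxO⟩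
    exact Set.mem_iUnion.2 ⟨n, hyO⟩
  obtain ⟨t, ht⟩ := isCompact_univ.elim_finite_subcover _
    (fun n : ℤ => hO.preimage (continuous_orbitPt h n)) hcov
  refine ⟨φ, t.sup Int.natAbs, fun y => (hφI y).1, fun x => ?_, fun x c c' hc hc' hne => ?_⟩
  · obtain ⟨n, hn, hx⟩ := Set.mem_iUnion₂.1 (ht (Set.mem_univ x))
    refine ⟨n, ?_, hx⟩
    rw [Int.abs_eq_natAbs]
    exact_mod_cast Finset.le_sup (f := Int.natAbs) hn
  · have key : ∀ c c' : ℤ, 0 < φ (orbitPt h c x) → 0 < φ (orbitPt h c' x) → c < c' →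
        (L : ℤ) ≤ c' - c := by
      intro c c' hc hc' hlt
      by_contra hL
      obtain ⟨d, hd⟩ := Int.eq_ofNat_of_zero_le (sub_nonneg.2 hlt.le)
      have hdL : d ∈ Finset.range (L + 1) := Finset.mem_range.2 (by omega)
      have h1 := Set.mem_iInter₂.1 (hpos _ hc) d hdL
      have h2 := Set.mem_iInter₂.1 (hpos _ hc') d hdL
      refine hVd d (by omega) _ h1 ?_
      rw [← orbitPt_add, ← hd, sub_add_cancel]
      exact h2
    rcases lt_or_gt_of_ne hne with hlt | hlt
    · rw [abs_sub_comm, abs_of_nonneg (by omega)]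
      exact key c c' hc hc' hlt
    · rw [abs_of_nonneg (by omega)]
      exact key c' c hc' hc hlt

/-- A Sturmian pattern of density `s`. -/
def pat (s : ℝ) (k : ℤ) : ℤ := ⌊((k : ℝ) + 1) * s⌋ - ⌊(k : ℝ) * s⌋

theorem pat_nonneg {s : ℝ} (h0 : 0 ≤ s) (k : ℤ) : 0 ≤ pat s k :=
  sub_nonneg.2 (Int.floor_mono (by nlinarith))

theorem pat_le_one {s : ℝ} (h1 : s ≤ 1) (k : ℤ) : pat s k ≤ 1 := by
  have h2 : ⌊((k : ℝ) + 1) * s⌋ ≤ ⌊(k : ℝ) * s + 1⌋ := Int.floor_mono (by nlinarith)
  rw [Int.floor_add_one] at h2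
  unfold pat
  omega

theorem pat_eq {s : ℝ} (h0 : 0 ≤ s) (h1 : s ≤ 1) (k : ℤ) :
    pat s k = if pat s k = 1 then 1 else 0 := by
  have := pat_nonneg h0 k
  have := pat_le_one h1 k
  split_ifs <;> omega

/-- For a minimal homeomorphism of an infinite compact Hausdorff space there are open sets met by
all long windows with frequency `s` up to `ε`. -/
theorem exists_openSet_frequency [CompactSpace X] [T2Space X] [Infinite X] (h : X ≃ₜ X)
    (hmin : ∀ x, Dense (Set.range fun n : ℤ => orbitPt h n x))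
    {s ε : ℝ} (h0 : 0 ≤ s) (h1 : s ≤ 1) (hε : 0 < ε) :
    ∃ U : Set X, IsOpen U ∧ ∃ N₀ : ℕ, ∀ x : X, ∀ N ≥ N₀,
      |(((Finset.range N).filter fun i : ℕ => (⇑h)^[i] x ∈ U).card : ℝ) - s * N| ≤ ε * N := by
  obtain ⟨L, hL⟩ := exists_nat_gt (4 / ε)
  have hL0 : (0 : ℝ) < L := lt_trans (by positivity) hL
  obtain ⟨φ, M, hnn, hcov, hsep⟩ := exists_marker h hmin L
  let R : ℤ := (M : ℤ) + 2
  let W : ℤ → Set X := fun k => {y | 0 < φ (orbitPt h k y)} ∩
    ⋂ k' ∈ (Finset.Icc (-R) R).erase k,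
      {y | φ (orbitPt h k' y) * ((k : ℝ) ^ 2 * φ (orbitPt h k y) + 1) <
        φ (orbitPt h k y) * ((k' : ℝ) ^ 2 * φ (orbitPt h k' y) + 1)}
  have hc : ∀ n, Continuous fun y => φ (orbitPt h n y) := fun n =>
    φ.continuous.comp (continuous_orbitPt h n)
  have hWo : ∀ k, IsOpen (W k) := fun k =>
    (isOpen_lt continuous_const (hc k)).inter <| isOpen_biInter_finset fun k' _ =>
      isOpen_lt ((hc k').mul ((continuous_const.mul (hc k)).add continuous_const))
        ((hc k).mul ((continuous_const.mul (hc k')).add continuous_const))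
  let U : Set X := ⋃ k ∈ (Finset.Icc (-R) R).filter fun k => pat s (-k) = 1, W k
  refine ⟨U, isOpen_biUnion fun k _ => hWo k, ⌈2 * (4 * (R : ℝ) + 3) / ε⌉₊, fun x N hN => ?_⟩
  -- costs of the markers seen from a site
  let w : ℤ → ℝ := fun c => φ (orbitPt h c x)
  let cost : ℤ → ℤ → ℝ := fun i c => ((c : ℝ) - i) ^ 2 + 1 / w c
  have howner : ∀ i : ℤ, ∃ o : ℤ, 0 < w o ∧ |o - i| ≤ R ∧
      (∀ c, 0 < w c → cost i o ≤ cost i c) ∧ ∀ c, 0 < w c → c < o → cost i o < cost i c := by
    intro i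
    let C : Finset ℤ := (Finset.Icc (i - R) (i + R)).filter fun c => 0 < w c
    obtain ⟨k, hk, hk2⟩ := hcov (orbitPt h i x)
    rw [← orbitPt_add] at hk2
    have hk3 : 1 / 2 < w (k + i) := hk2
    have hk' := abs_le.1 hk
    have hkC : k + i ∈ C :=
      Finset.mem_filter.2 ⟨Finset.mem_Icc.2 ⟨by omega, by omega⟩, by linarith⟩
    let Cm : Finset ℤ := C.filter fun c => ∀ c' ∈ C, cost i c ≤ cost i c'
    obtain ⟨c0, hc0, hc0'⟩ := C.exists_min_image (cost i) ⟨_, hkC⟩
    have hne : Cm.Nonempty := ⟨c0, Finset.mem_filter.2 ⟨hc0, hc0'⟩⟩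
    obtain ⟨hoC, homin⟩ := Finset.mem_filter.1 (Cm.min'_mem hne)
    obtain ⟨hoI, how⟩ := Finset.mem_filter.1 hoC
    have hbound : cost i (Cm.min' hne) ≤ (M : ℝ) ^ 2 + 2 := by
      refine (homin _ hkC).trans (add_le_add ?_ ?_)
      · have : (k : ℝ) ^ 2 ≤ (M : ℝ) ^ 2 := by
          rw [sq_le_sq]
          have : |(k : ℝ)| ≤ (M : ℝ) := by exact_mod_cast hk
          simpa using this
        simpa using this
      · rw [div_le_iff₀ (by linarith)]
        linarith
    have hall : ∀ c, 0 < w c → c ∉ C → cost i (Cm.min' hne) < cost i c := by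
      intro c hw hcC
      have hout : R + 1 ≤ |c - i| := by
        by_contra hlt
        have := abs_lt.1 (not_le.1 hlt)
        exact hcC (Finset.mem_filter.2 ⟨Finset.mem_Icc.2 ⟨by omega, by omega⟩, hw⟩)
      have hR : ((M : ℝ) + 3) ^ 2 ≤ ((c : ℝ) - i) ^ 2 := by
        rw [sq_le_sq, abs_of_nonneg (by positivity)]
        have : (((R + 1 : ℤ)) : ℝ) ≤ ((|c - i| : ℤ) : ℝ) := Int.cast_le.2 hout
        push_cast [R] at this ⊢
        linarith
      have hpos : 0 ≤ 1 / w c := by positivity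
      have : (0 : ℝ) ≤ M := Nat.cast_nonneg M
      show _ < ((c : ℝ) - i) ^ 2 + 1 / w c
      nlinarith
    refine ⟨Cm.min' hne, how, ?_, fun c hw => ?_, fun c hw hlt => ?_⟩
    · have := Finset.mem_Icc.1 hoI
      exact abs_le.2 ⟨by omega, by omega⟩
    · by_cases hcC : c ∈ C
      · exact homin c hcC
      · exact (hall c hw hcC).le
    · by_cases hcC : c ∈ C
      · by_contra hle
        have hcm : c ∈ Cm := Finset.mem_filter.2 ⟨hcC,
          fun c' hc' => (not_lt.1 hle).trans (homin c' hc')⟩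
        have := Cm.min'_le c hcm
        omega
      · exact hall c hw hcC
  choose o how hor homin holt using howner
  have hmono : ∀ i i' : ℤ, i < i' → o i ≤ o i' := by
    intro i i' hii
    by_contra hlt
    have hlt : o i' < o i := not_le.1 hlt
    have e1 := holt i (o i') (how i') hlt
    have e2 := homin i' (o i) (how i)
    have e3 : (0 : ℝ) < (i' : ℝ) - i := by exact_mod_cast sub_pos.2 hii
    have e4 : (0 : ℝ) < (o i : ℝ) - o i' := by exact_mod_cast sub_pos.2 hlt
    simp only [cost] at e1 e2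
    nlinarith [mul_pos e3 e4]
  have hiff : ∀ i : ℤ, o (i + 1) = o i → (orbitPt h i x ∈ U ↔ pat s (i - o i) = 1) := by
    intro i hsame
    -- the owner is the unique minimiser
    have huniq : ∀ c, 0 < w c → c ≠ o i → cost i (o i) < cost i c := by
      intro c hw hne
      rcases lt_or_gt_of_ne hne with hlt | hlt
      · exact holt i c hw hlt
      · have e2 := homin (i + 1) c hw
        rw [hsame] at e2
        have e4 : (0 : ℝ) < (c : ℝ) - o i := by exact_mod_cast sub_pos.2 hlt
        simp only [cost] at e2 ⊢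
        push_cast at e2
        nlinarith
    have hWval : ∀ k, φ (orbitPt h k (orbitPt h i x)) = w (k + i) := fun k => by
      rw [← orbitPt_add]
    have hWiff : ∀ k ∈ Finset.Icc (-R) R, orbitPt h i x ∈ W k ↔ k + i = o i := by
      intro k hk
      have hkey : ∀ c c' : ℤ, 0 < w c → 0 < w c' →
          (w c' * (((c : ℝ) - i) ^ 2 * w c + 1) < w c * (((c' : ℝ) - i) ^ 2 * w c' + 1) ↔
            cost i c < cost i c') := by
        intro c c' hw hw'
        rw [← sub_pos, ← sub_pos (a := cost i c')]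
        have : cost i c' - cost i c = (w c * (((c' : ℝ) - i) ^ 2 * w c' + 1) -
            w c' * (((c : ℝ) - i) ^ 2 * w c + 1)) / (w c * w c') := by
          simp only [cost]
          field_simp
        rw [this]
        exact (div_pos_iff_of_pos_right (mul_pos hw hw')).symm
      simp only [W, Set.mem_inter_iff, Set.mem_ofPred_eq, Set.mem_iInter, Finset.mem_erase, hWval]
      constructor
      · rintro ⟨hw, hall⟩
        by_contra hne
        have hr := abs_le.1 (hor i)
        have := hall (o i - i) ⟨by omega, Finset.mem_Icc.2 ⟨by omega, by omega⟩⟩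
        rw [sub_add_cancel] at this
        have h' := (hkey (k + i) (o i) hw (how i)).1 (by push_cast at this ⊢; simpa using this)
        exact absurd (homin i (k + i) hw) (not_le.2 h')
      · intro hki
        refine ⟨hki ▸ how i, fun k' hk' => ?_⟩
        by_cases hw' : 0 < w (k' + i)
        · have := (hkey (o i) (k' + i) (how i) hw').2 (huniq _ hw' (by omega))
          rw [← hki] at this
          push_cast at this ⊢
          simpa using this
        · have hz : w (k' + i) = 0 := le_antisymm (not_lt.1 hw') (hnn _)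
          have hpos : 0 < w (k + i) := hki ▸ how i
          rw [hz]
          simpa using hpos
    have hr := abs_le.1 (hor i)
    constructor
    · intro hU
      obtain ⟨k, hk, hkW⟩ := Set.mem_iUnion₂.1 hU
      obtain ⟨hkI, hkp⟩ := Finset.mem_filter.1 hk
      have := (hWiff k hkI).1 hkW
      rwa [show i - o i = -k by omega]
    · intro hp
      have hkI : o i - i ∈ Finset.Icc (-R) R := Finset.mem_Icc.2 ⟨by omega, by omega⟩
      exact Set.mem_iUnion₂.2 ⟨o i - i, Finset.mem_filter.2 ⟨hkI, by rw [neg_sub]; exact hp⟩,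
        (hWiff _ hkI).2 (by omega)⟩
  -- count
  let D : Finset ℕ := (Finset.range N).filter fun i => o ((i : ℤ) + 1) ≠ o i
  let f : ℤ → ℤ := fun k => ⌊(k : ℝ) * s⌋
  have hf : ∀ k, f k ≤ (k : ℝ) * s ∧ (k : ℝ) * s < f k + 1 := fun k =>
    ⟨Int.floor_le _, Int.lt_floor_add_one _⟩
  have hind : ∀ i : ℕ, |(if orbitPt h i x ∈ U then (1 : ℝ) else 0) -
      (pat s (i - o i) : ℝ)| ≤ if o ((i : ℤ) + 1) ≠ o i then 1 else 0 := by
    intro i
    by_cases hd : o ((i : ℤ) + 1) = o i
    · rw [if_neg (not_not.2 hd)]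
      have e := pat_eq h0 h1 ((i : ℤ) - o i)
      by_cases hU : orbitPt h i x ∈ U
      · simp [hU, (hiff i hd).1 hU]
      · have : ¬ pat s ((i : ℤ) - o i) = 1 := fun hp => hU ((hiff i hd).2 hp)
        rw [if_neg this] at e
        simp [hU, e]
    · rw [if_pos hd]
      have ha : (0 : ℝ) ≤ (pat s ((i : ℤ) - o i) : ℝ) := by exact_mod_cast pat_nonneg h0 _
      have hb : ((pat s ((i : ℤ) - o i) : ℤ) : ℝ) ≤ 1 := by exact_mod_cast pat_le_one h1 _
      rw [abs_le]
      split_ifs <;> constructor <;> linarith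
  have hjump : ∀ i : ℕ, |((pat s ((i : ℤ) - o i) : ℝ) -
      ((f (((i + 1 : ℕ) : ℤ) - o ((i + 1 : ℕ) : ℤ)) : ℝ) - f ((i : ℤ) - o i)) -
      s * ((o ((i + 1 : ℕ) : ℤ) : ℝ) - o i))| ≤ if o ((i : ℤ) + 1) ≠ o i then 1 else 0 := by
    intro i
    have hp : (pat s ((i : ℤ) - o i) : ℝ) = f ((i : ℤ) + 1 - o i) - f ((i : ℤ) - o i) := by
      simp only [pat, f]
      push_cast
      congr 3
      ring
    have hcast : (((i + 1 : ℕ) : ℕ) : ℤ) = (i : ℤ) + 1 := by push_cast; ring
    rw [hp, hcast]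
    by_cases hd : o ((i : ℤ) + 1) = o i
    · rw [if_neg (not_not.2 hd), hd]
      simp
    · rw [if_pos hd, abs_le]
      have := hf ((i : ℤ) + 1 - o i)
      have := hf ((i : ℤ) + 1 - o ((i : ℤ) + 1))
      push_cast at *
      constructor <;> nlinarith
  have hD : ((D.card : ℝ)) ≤ ((N : ℝ) + 2 * R) / L + 1 := by
    have hLp : 0 < L := by exact_mod_cast hL0
    have hR0 : 0 ≤ R := by omega
    let T : ℕ := (N + 2 * R.toNat) / L
    have hsub : ∀ i ∈ D, ((o ((i : ℤ) + 1) + R).toNat / L) ∈ Finset.range (T + 1) := by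
      intro i hi
      have hiN := Finset.mem_range.1 (Finset.mem_filter.1 hi).1
      have hr := abs_le.1 (hor ((i : ℤ) + 1))
      exact Finset.mem_range.2 (Nat.lt_succ_of_le (Nat.div_le_div_right (by omega)))
    have hinj : ∀ i ∈ D, ∀ i' ∈ D,
        (o ((i : ℤ) + 1) + R).toNat / L = (o ((i' : ℤ) + 1) + R).toNat / L → i = i' := by
      have key : ∀ i ∈ D, ∀ i' ∈ D, i < i' →
          (o ((i : ℤ) + 1) + R).toNat / L ≠ (o ((i' : ℤ) + 1) + R).toNat / L := by
        intro i hi i' hi' hlt heq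
        have hne := (Finset.mem_filter.1 hi').2
        have hle : o ((i : ℤ) + 1) ≤ o i' := by
          rcases eq_or_lt_of_le (show (i : ℤ) + 1 ≤ i' by omega) with he | he
          · rw [he]
          · exact hmono _ _ he
        have hlt2 : o (i' : ℤ) < o ((i' : ℤ) + 1) :=
          lt_of_le_of_ne (hmono _ _ (by omega)) (Ne.symm hne)
        have hd := hsep x _ _ (how ((i' : ℤ) + 1)) (how ((i : ℤ) + 1)) (by omega)
        rw [abs_of_nonneg (by omega)] at hd
        have hr := abs_le.1 (hor ((i : ℤ) + 1))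
        have h3 : (o ((i : ℤ) + 1) + R).toNat + L ≤ (o ((i' : ℤ) + 1) + R).toNat := by omega
        have h4 := Nat.div_le_div_right (c := L) h3
        rw [Nat.add_div_right _ hLp, heq] at h4
        omega
      intro i hi i' hi' heq
      rcases lt_trichotomy i i' with hlt | he | hlt
      · exact absurd heq (key i hi i' hi' hlt)
      · exact he
      · exact absurd heq.symm (key i' hi' i hi hlt)
    have hcard := Finset.card_le_card_of_injOn _ hsub (fun i hi i' hi' => hinj i hi i' hi')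
    rw [Finset.card_range] at hcard
    have hT : ((T : ℕ) : ℝ) ≤ ((N : ℝ) + 2 * R) / L := by
      refine Nat.cast_div_le.trans (le_of_eq ?_)
      have hRc : ((R.toNat : ℕ) : ℝ) = (R : ℝ) := by exact_mod_cast Int.toNat_of_nonneg hR0
      push_cast
      rw [hRc]
    have : (D.card : ℝ) ≤ (T : ℝ) + 1 := by exact_mod_cast hcard
    linarith
  -- telescope
  have hcount : (((Finset.range N).filter fun i : ℕ => (⇑h)^[i] x ∈ U).card : ℝ) =
      ∑ i ∈ Finset.range N, if orbitPt h i x ∈ U then (1 : ℝ) else 0 := by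
    rw [Finset.sum_boole]
    simp [orbitPt_natCast]
  have hDsum : (D.card : ℝ) =
      ∑ i ∈ Finset.range N, if o ((i : ℤ) + 1) ≠ o i then (1 : ℝ) else 0 := by
    rw [Finset.sum_boole]
  let F : ℕ → ℝ := fun i => (f ((i : ℤ) - o i) : ℝ) + s * (o i : ℝ)
  have hmain : |∑ i ∈ Finset.range N, ((if orbitPt h i x ∈ U then (1 : ℝ) else 0) -
      (F (i + 1) - F i))| ≤ 2 * (D.card : ℝ) := by
    refine (Finset.abs_sum_le_sum_abs _ _).trans ?_
    rw [hDsum, Finset.mul_sum]
    refine Finset.sum_le_sum fun i _ => ?_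
    have a := abs_le.1 (hind i)
    have b := abs_le.1 (hjump i)
    rw [abs_le]
    simp only [F]
    constructor <;> linarith
  rw [Finset.sum_sub_distrib, Finset.sum_range_sub, ← hcount] at hmain
  have hFN : |F N - F 0 - s * N| ≤ 1 := by
    have a := hf ((N : ℤ) - o N)
    have b := hf (((0 : ℕ) : ℤ) - o ((0 : ℕ) : ℤ))
    simp only [F]
    push_cast at a b ⊢
    rw [abs_le]
    constructor <;> nlinarith
  have hN' : 2 * (4 * (R : ℝ) + 3) / ε ≤ N :=
    (Nat.le_ceil _).trans (by exact_mod_cast hN)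
  rw [div_le_iff₀ hε] at hN'
  have hdiv : ((N : ℝ) + 2 * R) / L ≤ ε * N / 4 + 2 * R := by
    have hRnn : (0 : ℝ) ≤ R := by exact_mod_cast (show 0 ≤ R by omega)
    rw [div_le_iff₀ hL0]
    have h4 : 4 < (L : ℝ) * ε := (div_lt_iff₀ hε).1 hL
    have h1L : (1 : ℝ) ≤ L := by exact_mod_cast Nat.one_le_iff_ne_zero.2 (by
      rintro rfl; simp at hL0)
    have hNn : (0 : ℝ) ≤ N := Nat.cast_nonneg N
    nlinarith
  have a := abs_le.1 hmain
  have b := abs_le.1 hFN
  rw [abs_le]
  constructor <;> linarith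

/-- The same with the open set presented as the positivity set of a continuous function. -/
theorem exists_fun_frequency [CompactSpace X] [T2Space X] [TopologicalSpace.MetrizableSpace X]
    [Infinite X] (h : X ≃ₜ X) (hmin : ∀ x, Dense (Set.range fun n : ℤ => orbitPt h n x))
    {s ε : ℝ} (h0 : 0 ≤ s) (h1 : s ≤ 1) (hε : 0 < ε) :
    ∃ g : C(X, ℝ), (∀ x, 0 ≤ g x) ∧ ∃ N₀ : ℕ, ∀ x : X, ∀ N ≥ N₀,
      |(((Finset.range N).filter fun i : ℕ => 0 < g ((⇑h)^[i] x)).card : ℝ) - s * N| ≤ ε * N := by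
  obtain ⟨U, hU, N₀, hN⟩ := exists_openSet_frequency h hmin h0 h1 hε
  letI := TopologicalSpace.metrizableSpaceMetric X
  obtain ⟨g, hg, hgU⟩ : ∃ g : C(X, ℝ), (∀ x, 0 ≤ g x) ∧ ∀ x, 0 < g x ↔ x ∈ U := by
    rcases Set.eq_empty_or_nonempty Uᶜ with he | hne
    · refine ⟨1, fun x => by simp, fun x => ?_⟩
      simp [Set.compl_empty_iff.1 he]
    · refine ⟨⟨fun x => Metric.infDist x Uᶜ, Metric.continuous_infDist_pt Uᶜ⟩,
        fun x => Metric.infDist_nonneg, fun x => ?_⟩
      show 0 < Metric.infDist x Uᶜ ↔ _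
      rw [← hU.isClosed_compl.notMem_iff_infDist_pos hne, Set.notMem_compl_iff]
  refine ⟨g, hg, N₀, fun x N hx => ?_⟩
  simpa only [hgU] using hN x N hx

end

end P093
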