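import Vale.Agent.P093.Gap.Average

/-!
# P093: tracial states of an algebra with a covariant pair, on functions

A tracial state restricts to an invariant state of the functions, the functional calculus of a
function in the algebra is the composed function, and so the dimension function of a nonnegative
function is squeezed between the window frequencies of its positivity set.
-/

namespace P093

open Filter
open scoped Classical Topology

noncomputable section

variable {X : Type*} [TopologicalSpace X] {A : Type*} [CStarAlgebra A]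

/-- A real function as a complex one. -/
def cplx (g : C(X, ℝ)) : C(X, ℂ) := ⟨fun x => (g x : ℂ), Complex.continuous_ofReal.comp g.continuous⟩

@[simp] theorem cplx_apply (g : C(X, ℝ)) (x : X) : cplx g x = (g x : ℂ) := rfl

/-- The restriction of a tracial state to the functions is an invariant state. -/
def invStateOfTrace (h : X ≃ₜ X) (ι : C(X, ℂ) →⋆ₐ[ℂ] A) (u : unitary A)
    (hcov : ∀ f, (u : A) * ι f * star (u : A) = ι (f.comp (h.symm : C(X, X))))
    (φ : A →ₗ[ℂ] ℂ) (hφ1 : φ 1 = 1) (hpos : ∀ a, 0 ≤ (φ (star a * a)).re)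
    (htr : ∀ a b, φ (a * b) = φ (b * a)) : InvState h where
  toLin :=
    { toFun := fun g => (φ (ι (cplx g))).re
      map_add' := fun g g' => by
        have e : cplx (g + g') = cplx g + cplx g' := by ext x; simp
        simp [e, map_add]
      map_smul' := fun c g => by
        have e : cplx (c • g) = (c : ℂ) • cplx g := by ext x; simp
        simp [e, map_smul] }
  mono := fun u v huv => by
    have e : cplx v = cplx u + star (cplx ⟨fun x => Real.sqrt (v x - u x), by fun_prop⟩) *
        cplx ⟨fun x => Real.sqrt (v x - u x), by fun_prop⟩ := by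
      ext x
      have h0 := Real.mul_self_sqrt (sub_nonneg.2 (huv x))
      simp only [ContinuousMap.add_apply, ContinuousMap.mul_apply, ContinuousMap.star_apply,
        cplx_apply, ContinuousMap.coe_mk, Complex.star_def, Complex.conj_ofReal]
      rw [← Complex.ofReal_mul, h0, ← Complex.ofReal_add, add_sub_cancel]
    show (φ (ι (cplx u))).re ≤ (φ (ι (cplx v))).re
    rw [e, map_add, map_mul, map_star, map_add, Complex.add_re]
    exact le_add_of_nonneg_right (hpos _)
  map_one := by
    have e : cplx (1 : C(X, ℝ)) = 1 := by ext x; simp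
    show (φ (ι (cplx 1))).re = 1
    simp [e, hφ1]
  invariant := fun g => by
    show (φ (ι (cplx (g.comp (h : C(X, X)))))).re = (φ (ι (cplx g))).re
    have e : (cplx (g.comp (h : C(X, X)))).comp (h.symm : C(X, X)) = cplx g := by
      ext x
      simp
    have := hcov (cplx (g.comp (h : C(X, X))))
    rw [e] at this
    rw [← this, htr, ← mul_assoc, Unitary.coe_star_mul_self, one_mul]

/-- A real power of a nonnegative function, as a function. -/
def powC (g : C(X, ℝ)) {r : ℝ} (hr : 0 ≤ r) : C(X, ℝ) :=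
  ⟨fun x => g x ^ r, (Real.continuous_rpow_const hr).comp g.continuous⟩

/-- The functional calculus of a function inside the algebra. -/
theorem cfc_map_cplx [CompactSpace X] (ι : C(X, ℂ) →⋆ₐ[ℂ] A) (g : C(X, ℝ)) (F : ℝ → ℝ)
    (hF : Continuous F) : cfc F (ι (cplx g)) = ι (cplx ((⟨F, hF⟩ : C(ℝ, ℝ)).comp g)) := by
  have hsa : IsSelfAdjoint (cplx g) := by ext x; simp
  have hι : Continuous ι := AddMonoidHomClass.continuous_of_bound ι 1 fun f => by
    rw [one_mul]
    exact NonUnitalStarAlgHom.norm_apply_le ι f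
  rw [cfc_real_eq_complex F (ha := hsa.map ι)]
  have hF' : Continuous fun z : ℂ => ((F z.re : ℝ) : ℂ) :=
    Complex.continuous_ofReal.comp (hF.comp Complex.continuous_re)
  rw [← StarAlgHom.map_cfc ι (fun z : ℂ => ((F z.re : ℝ) : ℂ)) (cplx g) hF'.continuousOn hι
    hsa.isStarNormal (hsa.map ι).isStarNormal]
  refine congrArg ι (ContinuousMap.ext fun x => ?_)
  let ev : C(X, ℂ) →⋆ₐ[ℂ] ℂ := ContinuousMap.evalStarAlgHom ℂ ℂ x
  have hev : ev (cplx g) = algebraMap ℂ ℂ (g x : ℂ) := rfl
  have := StarAlgHom.map_cfc ev (fun z : ℂ => ((F z.re : ℝ) : ℂ)) (cplx g) hF'.continuousOn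
    (ContinuousEvalConst.continuous_eval_const x) hsa.isStarNormal (hsa.map ev).isStarNormal
  rw [hev, cfc_algebraMap] at this
  refine Eq.trans this ?_
  simp

/-- The dimension function of a function lies between the frequencies of its positivity set. -/
theorem InvState.exists_dim [CompactSpace X] {h : X ≃ₜ X} (Λ : InvState h) (g : C(X, ℝ))
    (hg0 : ∀ x, 0 ≤ g x) (hg1 : ∀ x, g x ≤ 1) {N : ℕ} (hN : 0 < N) {c₁ c₂ : ℝ}
    (h₁ : ∀ x, c₁ * N ≤ (((Finset.range N).filter fun i : ℕ => 0 < g ((⇑h)^[i] x)).card : ℝ))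
    (h₂ : ∀ x, (((Finset.range N).filter fun i : ℕ => 0 < g ((⇑h)^[i] x)).card : ℝ) ≤ c₂ * N) :
    ∃ d, Tendsto (fun m : ℕ => Λ.toLin (powC g (r := 1 / ((m : ℝ) + 1)) (by positivity))) atTop
        (𝓝 d) ∧ c₁ ≤ d ∧ d ≤ c₂ := by
  have hexp : ∀ m : ℕ, (0 : ℝ) < 1 / ((m : ℝ) + 1) := fun m => by positivity
  let u : ℕ → C(X, ℝ) := fun m => powC g (hexp m).le
  have hu : ∀ m x, u m x = g x ^ (1 / ((m : ℝ) + 1)) := fun m x => rfl
  have hmono : ∀ x, Monotone fun m => u m x := fun x m m' hm => by
    simp only [hu]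
    rcases (hg0 x).eq_or_lt with hx | hx
    · rw [← hx, Real.zero_rpow (hexp m).ne', Real.zero_rpow (hexp m').ne']
    · exact Real.rpow_le_rpow_of_exponent_ge hx (hg1 x) (Nat.one_div_le_one_div hm)
  have hle : ∀ m, Λ.toLin (u m) ≤ c₂ := fun m => Λ.le_frequency g (u m)
    (fun x => Real.rpow_le_one (hg0 x) (hg1 x) (hexp m).le)
    (fun x hx => by rw [hu, le_antisymm hx (hg0 x), Real.zero_rpow (hexp m).ne']) hN h₂
  have hmonoL : Monotone fun m => Λ.toLin (u m) := fun m m' hm =>
    Λ.mono _ _ fun x => hmono x hm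
  obtain ⟨d, hd⟩ : ∃ d, Tendsto (fun m => Λ.toLin (u m)) atTop (𝓝 d) :=
    ⟨_, tendsto_atTop_ciSup hmonoL ⟨c₂, by rintro _ ⟨m, rfl⟩; exact hle m⟩⟩
  refine ⟨d, hd, le_of_forall_pos_le_add fun δ hδ => ?_, le_of_tendsto' hd hle⟩
  have hlim : ∀ x, 0 < g x → Tendsto (fun m => u m x) atTop (𝓝 1) := fun x hx => by
    have h1 := (Real.continuous_const_rpow hx.ne').tendsto (0 : ℝ)
    rw [Real.rpow_zero] at h1
    exact h1.comp tendsto_one_div_add_atTop_nhds_zero_nat
  have hev := InvState.eventually_ge_frequency (h := h) g u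
    (fun m x => Real.rpow_nonneg (hg0 x) _) hmono hlim hN hδ h₁
  have := ge_of_tendsto hd (hev.mono fun m hm => hm Λ)
  linarith

end

end P093
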