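import Vale.Agent.P093.Gap.Markers

/-!
# P093: window counts control invariant functionals

If every long window meets the positivity set of `g` with frequency `s` up to `ε`, then every
invariant state of `C(X)` gives that set mass `s` up to `ε`, in the form needed for dimension
functions: on functions below the indicator, and in the limit of functions increasing to it.
-/

namespace P093

open Filter
open scoped Classical Topology

noncomputable section

variable {X : Type*} [TopologicalSpace X]

/-- An invariant state of the continuous real functions. -/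
structure InvState (h : X ≃ₜ X) where
  /-- The functional. -/
  toLin : C(X, ℝ) →ₗ[ℝ] ℝ
  mono : ∀ u v : C(X, ℝ), (∀ x, u x ≤ v x) → toLin u ≤ toLin v
  map_one : toLin 1 = 1
  invariant : ∀ u : C(X, ℝ), toLin (u.comp (h : C(X, X))) = toLin u

variable {h : X ≃ₜ X}

/-- The iterate as a continuous map. -/
def iterC (h : X ≃ₜ X) (i : ℕ) : C(X, X) := ⟨(⇑h)^[i], h.continuous.iterate i⟩

/-- The sum of a function along a window. -/
def windowSum (h : X ≃ₜ X) (u : C(X, ℝ)) (N : ℕ) : C(X, ℝ) :=
  ∑ i ∈ Finset.range N, u.comp (iterC h i)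

theorem windowSum_apply (u : C(X, ℝ)) (N : ℕ) (x : X) :
    windowSum h u N x = ∑ i ∈ Finset.range N, u ((⇑h)^[i] x) := by
  simp [windowSum, iterC]

theorem InvState.windowSum_eq (Λ : InvState h) (u : C(X, ℝ)) (N : ℕ) :
    Λ.toLin (windowSum h u N) = N * Λ.toLin u := by
  have key : ∀ i, Λ.toLin (u.comp (iterC h i)) = Λ.toLin u := by
    intro i
    induction i with
    | zero => exact congrArg _ (ContinuousMap.ext fun x => by simp [iterC])
    | succ i hi =>
      rw [← hi, ← Λ.invariant (u.comp (iterC h i))]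
      exact congrArg _ (ContinuousMap.ext fun x => by simp [iterC])
  simp [windowSum, map_sum, key]

theorem InvState.le_of_window (Λ : InvState h) (u : C(X, ℝ)) {N : ℕ} (hN : 0 < N) {c : ℝ}
    (hc : ∀ x, ∑ i ∈ Finset.range N, u ((⇑h)^[i] x) ≤ c * N) : Λ.toLin u ≤ c := by
  have h1 : Λ.toLin (windowSum h u N) ≤ Λ.toLin ((c * N) • (1 : C(X, ℝ))) :=
    Λ.mono _ _ fun x => by simpa [windowSum_apply] using hc x
  rw [Λ.windowSum_eq, map_smul, Λ.map_one, smul_eq_mul, mul_one, mul_comm c] at h1
  exact le_of_mul_le_mul_left h1 (by exact_mod_cast hN)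

theorem InvState.ge_of_window (Λ : InvState h) (u : C(X, ℝ)) {N : ℕ} (hN : 0 < N) {c : ℝ}
    (hc : ∀ x, c * N ≤ ∑ i ∈ Finset.range N, u ((⇑h)^[i] x)) : c ≤ Λ.toLin u := by
  have h1 : Λ.toLin ((c * N) • (1 : C(X, ℝ))) ≤ Λ.toLin (windowSum h u N) :=
    Λ.mono _ _ fun x => by simpa [windowSum_apply] using hc x
  rw [Λ.windowSum_eq, map_smul, Λ.map_one, smul_eq_mul, mul_one, mul_comm c] at h1
  exact le_of_mul_le_mul_left h1 (by exact_mod_cast hN)

/-- A function below the indicator of the positivity set has small mass. -/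
theorem InvState.le_frequency (Λ : InvState h) (g u : C(X, ℝ)) (hu1 : ∀ x, u x ≤ 1)
    (hu0 : ∀ x, g x ≤ 0 → u x ≤ 0) {N : ℕ} (hN : 0 < N) {c : ℝ}
    (hc : ∀ x, (((Finset.range N).filter fun i : ℕ => 0 < g ((⇑h)^[i] x)).card : ℝ) ≤ c * N) :
    Λ.toLin u ≤ c := by
  refine Λ.le_of_window u hN fun x => le_trans ?_ (hc x)
  rw [← Finset.sum_boole]
  refine Finset.sum_le_sum fun i _ => ?_
  split_ifs with hg
  · exact hu1 _
  · exact hu0 _ (not_lt.1 hg)

/-- A sequence increasing to one on the positivity set eventually has the mass of that set,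
uniformly over the invariant states. -/
theorem InvState.eventually_ge_frequency [CompactSpace X] (g : C(X, ℝ)) (u : ℕ → C(X, ℝ))
    (hu0 : ∀ m x, 0 ≤ u m x) (hmono : ∀ x, Monotone fun m => u m x)
    (hlim : ∀ x, 0 < g x → Tendsto (fun m => u m x) atTop (𝓝 1))
    {N : ℕ} (hN : 0 < N) {c δ : ℝ} (hδ : 0 < δ)
    (hc : ∀ x, c * N ≤ (((Finset.range N).filter fun i : ℕ => 0 < g ((⇑h)^[i] x)).card : ℝ)) :
    ∀ᶠ m in atTop, ∀ Λ : InvState h, c - δ ≤ Λ.toLin (u m) := by
  let O : ℕ → Set X := fun m => {x | (c - δ) * N < windowSum h (u m) N x}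
  have hO : ∀ m, IsOpen (O m) := fun m => isOpen_lt continuous_const (windowSum h (u m) N).continuous
  have hsub : Monotone O := fun m m' hmm x hx => by
    show _ < windowSum h (u m') N x
    refine lt_of_lt_of_le (show _ < windowSum h (u m) N x from hx) ?_
    simp only [windowSum_apply]
    exact Finset.sum_le_sum fun i _ => hmono _ hmm
  have hcov : Set.univ ⊆ ⋃ m, O m := by
    intro x _
    have ht : Tendsto (fun m => ∑ i ∈ (Finset.range N).filter (fun i : ℕ => 0 < g ((⇑h)^[i] x)),
        u m ((⇑h)^[i] x)) atTop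
        (𝓝 (((Finset.range N).filter fun i : ℕ => 0 < g ((⇑h)^[i] x)).card : ℝ)) := by
      have := tendsto_finsetSum ((Finset.range N).filter fun i : ℕ => 0 < g ((⇑h)^[i] x))
        fun i hi => hlim _ (Finset.mem_filter.1 hi).2
      simpa using this
    have hlt : (c - δ) * N < (((Finset.range N).filter fun i : ℕ => 0 < g ((⇑h)^[i] x)).card : ℝ) := by
      have : 0 < δ * (N : ℝ) := mul_pos hδ (by exact_mod_cast hN)
      linarith [hc x]
    obtain ⟨m, hm⟩ := (ht.eventually_const_lt hlt).exists
    refine Set.mem_iUnion.2 ⟨m, show _ < windowSum h (u m) N x from ?_⟩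
    rw [windowSum_apply]
    exact hm.trans_le (Finset.sum_le_sum_of_subset_of_nonneg (Finset.filter_subset _ _)
      fun i _ _ => hu0 m _)
  obtain ⟨m, hm⟩ := isCompact_univ.elim_directed_cover O hO hcov hsub.directed_le
  refine eventually_atTop.2 ⟨m, fun m' hmm Λ => Λ.ge_of_window _ hN fun x => ?_⟩
  have := hsub hmm (hm (Set.mem_univ x))
  simp only [O, Set.mem_ofPred_eq, windowSum_apply] at this
  exact this.le

end

end P093
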