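import Vale.Agent.P093.Gap.CubePhase
import Vale.Agent.P093.Defs

/-!
# P093: minimal systems with cube windows of their full mean dimension and long returns
-/

namespace Vale.Agent.P093

open scoped unitInterval ENNReal

noncomputable section

/-- Minimal systems whose cube windows have density exactly their mean dimension and which have
clopen sets with arbitrarily long bounded return times. -/
theorem exists_cubeWindowSystem {M : ℕ} {ρ : ℝ} (hM : 0 < M) (h0 : 0 ≤ ρ) (h1 : ρ < 1) :
    ∃ (X : Type) (_ : TopologicalSpace X) (_ : CompactSpace X) (_ : T2Space X)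
      (_ : TopologicalSpace.MetrizableSpace X) (_ : Infinite X) (h : X ≃ₜ X)
      (f : C(X, Fin M → ℝ)) (m : ℝ),
      (∀ x, Dense (Set.range fun n : ℤ => _root_.P093.orbitPt h n x)) ∧ ρ * M ≤ m ∧ m ≤ M ∧
      _root_.P093.meanDim h = ENNReal.ofReal m ∧ CubeWindows h f m ∧ HasLongReturns h := by
  obtain ⟨X, _, _, _, _, _, h, g, m, U, P, hmin, hlo, hhi, hmdim, hU, hcube⟩ :=
    _root_.P093.exists_periodicCubeSystem (ρ := ρ) hM h0 h1
  have hcont : Continuous fun x => fun c => ((g x c : I) : ℝ) :=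
    continuous_pi fun c => continuous_subtype_val.comp ((continuous_apply c).comp g.continuous)
  refine ⟨X, inferInstance, inferInstance, inferInstance, inferInstance, inferInstance, h,
    ⟨fun x c => (g x c : ℝ), hcont⟩, m, hmin, hlo, hhi, hmdim, fun N₀ => ?_, fun L => ?_⟩
  · obtain ⟨N, hN, J, hJ, hc, w, lift, -, hlift⟩ := hcube N₀
    let J' : Finset (Fin N × Fin M) := Finset.univ.filter fun p => (p.1 : ℕ) ∈ J
    have hcard : J'.card = J.card * M := by
      rw [show J.card * M = (J ×ˢ (Finset.univ : Finset (Fin M))).card by simp]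
      refine Finset.card_bij (fun p _ => ((p.1 : ℕ), p.2)) ?_ ?_ ?_
      · intro p hp
        exact Finset.mem_product.2 ⟨(Finset.mem_filter.1 hp).2, Finset.mem_univ _⟩
      · intro p _ q _ hpq
        simp only [Prod.mk.injEq] at hpq
        exact Prod.ext (Fin.ext hpq.1) hpq.2
      · intro q hq
        have hq1 := (Finset.mem_product.1 hq).1
        exact ⟨(⟨q.1, Finset.mem_range.1 (hJ hq1)⟩, q.2),
          Finset.mem_filter.2 ⟨Finset.mem_univ _, hq1⟩, rfl⟩
    let toCube : (↥J' → I) → (↥J → _root_.P093.Cube M) := fun y i c =>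
      y ⟨(⟨i.1, Finset.mem_range.1 (hJ i.2)⟩, c), Finset.mem_filter.2 ⟨Finset.mem_univ _, i.2⟩⟩
    have htc : Continuous toCube :=
      continuous_pi fun i => continuous_pi fun c => continuous_apply _
    refine ⟨N, hN, J', ?_, lift.comp ⟨toCube, htc⟩, fun y p => ?_, fun p hp y y' => ?_⟩
    · rw [hcard]
      push_cast
      exact hc
    · have := (hlift (toCube y)).1 (p.1.1 : ℕ) (Finset.mem_filter.1 p.2).2
      exact congrArg (fun t : I => (t : ℝ)) (congrFun this p.1.2)
    · have hni : (p.1 : ℕ) ∉ J := fun hi => hp (Finset.mem_filter.2 ⟨Finset.mem_univ _, hi⟩)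
      show ((g ((⇑h)^[(p.1 : ℕ)] (lift (toCube y))) p.2 : I) : ℝ) =
        (g ((⇑h)^[(p.1 : ℕ)] (lift (toCube y'))) p.2 : I)
      rw [(hlift (toCube y)).2 _ p.1.2 hni, (hlift (toCube y')).2 _ p.1.2 hni]
  · obtain ⟨hP, -, hclopen, hper⟩ := hU L
    have key : ∀ x, ∃ r : ℤ, ∀ k : ℕ, (⇑h)^[k] x ∈ U L ↔ (P L : ℤ) ∣ (k : ℤ) - r := fun x => by
      obtain ⟨r, hr⟩ := hper x
      exact ⟨r, fun k => by rw [← _root_.P093.orbitPt_natCast, hr]⟩
    refine ⟨U L, hclopen, fun x hx k hk hkL hmem => ?_, P L, fun x => ?_⟩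
    · obtain ⟨r, hr⟩ := key x
      have hd0 : (P L : ℤ) ∣ ((0 : ℕ) : ℤ) - r := (hr 0).1 hx
      have hd := Int.dvd_sub ((hr k).1 hmem) hd0
      have hk' : (P L : ℤ) ∣ (k : ℤ) := by simpa using hd
      have := Nat.le_of_dvd hk (Int.natCast_dvd_natCast.1 hk')
      omega
    · obtain ⟨r, hr⟩ := key x
      have hP0 : (0 : ℤ) < P L := by omega
      obtain ⟨k, hk⟩ := Int.eq_ofNat_of_zero_le (Int.emod_nonneg r hP0.ne')
      refine ⟨k, ?_, (hr k).2 ?_⟩
      · have := Int.emod_lt_of_pos r hP0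
        omega
      · rw [← hk]
        exact Int.dvd_emod_sub_self

end

end Vale.Agent.P093
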