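import Vale.Agent.P093.Gap.MeanDim

/-!
# P093: cube subshifts with their phases

Remembering the phase of every level of the construction gives minimal systems with clopen sets
whose return times are exactly arbitrarily long periods; the mean dimension and the cubes stay.
-/

namespace P093

open scoped Classical Topology unitInterval ENNReal
open Function

noncomputable section

namespace Lvl

variable {M : ℕ} (L : Lvl M)

theorem idx_sub_idx (n m : ℤ) : L.idx (n - L.idx m) = L.idx (n - m) := by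
  simp only [idx]
  rw [show ((m % (L.N : ℤ)).toNat : ℤ) = m % (L.N : ℤ) from L.idx_cast m, Int.sub_emod_emod]

theorem idx_idx_sub (m i : ℤ) : L.idx ((L.idx m : ℤ) - i) = L.idx (m - i) := by
  simp only [idx]
  rw [show ((m % (L.N : ℤ)).toNat : ℤ) = m % (L.N : ℤ) from L.idx_cast m, Int.emod_sub_emod]

end Lvl

variable {M : ℕ} {ρ : ℝ}

theorem level_dvd {l k : ℕ} (h : l ≤ k) : (level M ρ l).N ∣ (level M ρ k).N := by
  induction k, h using Nat.le_induction with
  | base => exact dvd_rfl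
  | succ k _ ih => exact ih.trans (Dvd.intro_left (copies M ρ (level M ρ k) k) rfl)

theorem idx_level {l k : ℕ} (h : l ≤ k) (n : ℤ) :
    (level M ρ k).idx n % (level M ρ l).N = (level M ρ l).idx n := by
  have : ((((level M ρ k).idx n % (level M ρ l).N : ℕ)) : ℤ) = ((level M ρ l).idx n : ℤ) := by
    rw [Int.natCast_mod, Lvl.idx_cast, Lvl.idx_cast]
    exact Int.emod_emod_of_dvd n (Int.natCast_dvd_natCast.2 (level_dvd h))
  exact_mod_cast this

variable (M) (ρ)

/-- A phase for every level. -/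
abbrev Phases : Type := ∀ k, Fin (level M ρ k).N

/-- Sequences with compatible phases for all levels. -/
def phasedSpace : Set ((ℤ → Cube M) × Phases M ρ) :=
  {q | ∀ k, (q.2 (k + 1) : ℕ) % (level M ρ k).N = q.2 k ∧
    ∀ n, (level M ρ k).idx (n - (q.2 k : ℕ)) ∉ (level M ρ k).J →
      q.1 n = (level M ρ k).w ((level M ρ k).idx (n - (q.2 k : ℕ)))}

variable {M} {ρ}

theorem isClosed_phasedSpace : IsClosed (phasedSpace M ρ) := by
  simp only [phasedSpace, Set.ofPred_forall, Set.ofPred_and]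
  refine isClosed_iInter fun k => ?_
  have hc : Continuous fun q : (ℤ → Cube M) × Phases M ρ => (q.2 (k + 1), q.2 k) :=
    ((continuous_apply (k + 1)).comp continuous_snd).prodMk
      ((continuous_apply k).comp continuous_snd)
  refine IsClosed.inter ?_ (isClosed_iInter fun n => ?_)
  · exact IsClosed.preimage hc (isClosed_discrete
      {t : Fin (level M ρ (k + 1)).N × Fin (level M ρ k).N |
        (t.1 : ℕ) % (level M ρ k).N = t.2})
  have hsplit : {q : (ℤ → Cube M) × Phases M ρ |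
      (level M ρ k).idx (n - (q.2 k : ℕ)) ∉ (level M ρ k).J →
        q.1 n = (level M ρ k).w ((level M ρ k).idx (n - (q.2 k : ℕ)))} =
      ⋂ t : Fin (level M ρ k).N, {q : (ℤ → Cube M) × Phases M ρ | q.2 k ≠ t} ∪
        {q | (level M ρ k).idx (n - (t : ℕ)) ∉ (level M ρ k).J →
          q.1 n = (level M ρ k).w ((level M ρ k).idx (n - (t : ℕ)))} := by
    ext q
    simp only [Set.mem_ofPred_eq, Set.mem_iInter, Set.mem_union]
    exact ⟨fun h t => (em (q.2 k = t)).elim (fun e => Or.inr (e ▸ h)) Or.inl,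
      fun h => (h (q.2 k)).resolve_left (fun e => e rfl)⟩
  simp only [Set.ofPred_forall] at hsplit ⊢
  rw [hsplit]
  refine isClosed_iInter fun t => IsClosed.union ?_ ?_
  · have hc2 : Continuous fun q : (ℤ → Cube M) × Phases M ρ => q.2 k :=
      (continuous_apply k).comp continuous_snd
    exact IsClosed.preimage hc2 (isClosed_discrete ({t}ᶜ : Set (Fin (level M ρ k).N)))
  · by_cases h : (level M ρ k).idx (n - (t : ℕ)) ∈ (level M ρ k).J
    · simp [h]
    · simpa [h] using isClosed_eq ((continuous_apply n).comp continuous_fst) continuous_const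

theorem phase_compat (x : phasedSpace M ρ) {l k : ℕ} (h : l ≤ k) :
    (x.1.2 k : ℕ) % (level M ρ l).N = x.1.2 l := by
  induction k, h using Nat.le_induction with
  | base => exact Nat.mod_eq_of_lt (x.1.2 l).2
  | succ k hk ih =>
    rw [← ih, ← (x.2 k).1, Nat.mod_mod_of_dvd _ (level_dvd hk)]

theorem idx_sub_phase (x : phasedSpace M ρ) {l k : ℕ} (h : l ≤ k) (j : ℤ) :
    (level M ρ l).idx (((x.1.2 k : ℕ) : ℤ) - j) = (level M ρ l).idx (((x.1.2 l : ℕ) : ℤ) - j) := by
  rw [← phase_compat x h]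
  push_cast
  simp only [Lvl.idx, Int.emod_sub_emod]

/-- The point moved by `j`. -/
def shiftPt (j : ℤ) (x : phasedSpace M ρ) : phasedSpace M ρ :=
  ⟨(fun n => x.1.1 (n + j), fun k =>
      ⟨(level M ρ k).idx (((x.1.2 k : ℕ) : ℤ) - j), Lvl.idx_lt _ _⟩), fun k => by
    refine ⟨(idx_level (Nat.le_succ k) _).trans (idx_sub_phase x (Nat.le_succ k) j), fun n hn => ?_⟩
    have e : n + j - ((x.1.2 k : ℕ) : ℤ) = n - (((x.1.2 k : ℕ) : ℤ) - j) := by ring
    simp only [Lvl.idx_sub_idx] at hn ⊢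
    rw [← e] at hn ⊢
    exact (x.2 k).2 (n + j) hn⟩

theorem shiftPt_zero (x : phasedSpace M ρ) : shiftPt 0 x = x := by
  refine Subtype.ext (Prod.ext (funext fun n => ?_) (funext fun k => Fin.ext ?_))
  · simp [shiftPt]
  · simp only [shiftPt, sub_zero]
    exact Lvl.idx_natCast _ (x.1.2 k).2

theorem shiftPt_add (i j : ℤ) (x : phasedSpace M ρ) :
    shiftPt i (shiftPt j x) = shiftPt (i + j) x := by
  refine Subtype.ext (Prod.ext (funext fun n => ?_) (funext fun k => Fin.ext ?_))
  · simp [shiftPt, add_assoc]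
  · simp only [shiftPt, Lvl.idx_idx_sub]
    congr 1
    ring

theorem continuous_shiftPt (j : ℤ) : Continuous (shiftPt (M := M) (ρ := ρ) j) := by
  refine Continuous.subtype_mk (Continuous.prodMk (continuous_pi fun n => ?_)
    (continuous_pi fun k => ?_)) _
  · exact (continuous_apply (n + j)).comp (continuous_fst.comp continuous_subtype_val)
  · exact Continuous.comp (g := fun t : Fin (level M ρ k).N =>
      (⟨(level M ρ k).idx (((t : ℕ) : ℤ) - j), Lvl.idx_lt _ _⟩ : Fin (level M ρ k).N))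
      continuous_of_discreteTopology
      ((continuous_apply k).comp (continuous_snd.comp continuous_subtype_val))

/-- The shift of the phased subshift. -/
def phasedShift : phasedSpace M ρ ≃ₜ phasedSpace M ρ where
  toFun := shiftPt 1
  invFun := shiftPt (-1)
  left_inv x := by rw [shiftPt_add, neg_add_cancel, shiftPt_zero]
  right_inv x := by rw [shiftPt_add, add_neg_cancel, shiftPt_zero]
  continuous_toFun := continuous_shiftPt 1
  continuous_invFun := continuous_shiftPt (-1)

theorem orbitPt_phasedShift (j : ℤ) (x : phasedSpace M ρ) :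
    orbitPt phasedShift j x = shiftPt j x := by
  induction j using Int.induction_on generalizing x with
  | zero => rw [orbitPt_zero, shiftPt_zero]
  | succ i hi =>
    rw [orbitPt_add, hi, ← shiftPt_add]
    simp [orbitPt, phasedShift]
  | pred i hi =>
    rw [sub_eq_add_neg, orbitPt_add, hi, ← shiftPt_add]
    simp [orbitPt, phasedShift]

/-- Every orbit of the phased subshift is dense. -/
theorem phasedShift_minimal (x : phasedSpace M ρ) :
    Dense (Set.range fun j : ℤ => orbitPt phasedShift j x) := by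
  refine dense_iff_inter_open.2 fun V hV ⟨y, hy⟩ => ?_
  obtain ⟨V', hV', rfl⟩ := isOpen_induced_iff.1 hV
  obtain ⟨A, B, hA, hB, hyA, hyB, hAB⟩ := isOpen_prod_iff.1 hV' y.1.1 y.1.2 hy
  obtain ⟨F, u, hu, hsub⟩ := isOpen_pi_iff.1 hA y.1.1 hyA
  obtain ⟨G, v, hv, hsubv⟩ := isOpen_pi_iff.1 hB y.1.2 hyB
  have hball : ∀ n ∈ F, ∀ᶠ k : ℕ in Filter.atTop,
      Metric.closedBall (y.1.1 n) (1 / ((k : ℝ) + 1)) ⊆ u n := by
    intro n hn
    obtain ⟨δ, hδ, hb⟩ := Metric.isOpen_iff.1 (hu n hn).1 _ (hu n hn).2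
    obtain ⟨k₀, hk₀⟩ := exists_nat_one_div_lt hδ
    refine Filter.eventually_atTop.2 ⟨k₀, fun k hk => (Metric.closedBall_subset_ball ?_).trans hb⟩
    exact lt_of_le_of_lt (Nat.one_div_le_one_div hk) hk₀
  obtain ⟨k, hk, hkA, hkG⟩ := ((Filter.eventually_all_finset F).2 hball |>.and
    ((Filter.eventually_gt_atTop (2 * F.sup Int.natAbs)).and
      (Filter.eventually_ge_atTop (G.sup id)))).exists
  let L := level M ρ k
  have hkN : k < L.N := level_grow k
  let p : ℤ := ((y.1.2 k : ℕ) : ℤ)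
  have hp : ∀ n, L.idx (n - p) ∉ L.J → y.1.1 n = L.w (L.idx (n - p)) := (y.2 k).2
  let a : ℤ := (F.sup Int.natAbs : ℕ)
  let n₀ : ℤ := -a - (L.idx (-a - p) : ℤ)
  let g : L.Grid k := fun i c => roundI k (y.1.1 (n₀ + (i : ℕ)) c)
  let r := Fintype.equivFin (L.Grid k) g
  let q : ℤ := ((x.1.2 (k + 1) : ℕ) : ℤ)
  have hq := (x.2 (k + 1)).2
  let j : ℤ := q + ((2 * (r : ℕ) + 1) * L.N : ℕ) - n₀
  refine ⟨orbitPt phasedShift j x, ?_, ⟨_, rfl⟩⟩
  rw [orbitPt_phasedShift]
  refine hAB ⟨hsub fun n hn => hk n hn ?_, hsubv fun l hl => ?_⟩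
  swap
  · have hlk : l ≤ k := le_trans (Finset.le_sup (f := id) hl) hkG
    have e : (shiftPt j x).1.2 l = y.1.2 l := by
      refine Fin.ext ?_
      show (level M ρ l).idx (((x.1.2 l : ℕ) : ℤ) - j) = y.1.2 l
      rw [← idx_sub_phase x (hlk.trans (Nat.le_succ k))]
      have hy' : (level M ρ l).idx p = y.1.2 l := by
        have := idx_sub_phase y hlk 0
        simp only [sub_zero] at this
        exact this.trans (Lvl.idx_natCast _ (y.1.2 l).2)
      rw [← hy', ← idx_level hlk (((x.1.2 (k + 1) : ℕ) : ℤ) - j), ← idx_level hlk p]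
      congr 1
      have h1 : (L.idx (q - j) : ℤ) = (L.idx p : ℤ) := by
        rw [L.idx_cast, L.idx_cast]
        refine Int.emod_eq_emod_iff_emod_sub_eq_zero.2 (Int.emod_eq_zero_of_dvd ?_)
        have h3 := Int.emod_emod_of_dvd (-a - p) (dvd_refl (L.N : ℤ))
        have h2 := Int.dvd_sub_self_of_emod_eq (L.idx_cast (-a - p)).symm
        have e : q - j - p = -((2 * (r : ℕ) + 1) * L.N : ℕ) + ((-a - p) - (L.idx (-a - p) : ℤ)) := by
          simp only [j, n₀]
          ring
        rw [e]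
        refine dvd_add (dvd_neg.2 (by exact_mod_cast Dvd.intro_left _ rfl)) ?_
        rw [L.idx_cast]
        exact Int.dvd_self_sub_emod
      exact_mod_cast h1
    rw [e]
    exact (hv l hl).2
  have hna : n.natAbs ≤ F.sup Int.natAbs := Finset.le_sup (f := Int.natAbs) hn
  have hidx := L.idx_lt (-a - p)
  obtain ⟨i, hi⟩ := Int.eq_ofNat_of_zero_le (show 0 ≤ n - n₀ by simp only [n₀, a]; omega)
  have hi2 : i < 2 * L.N := by simp only [n₀, a] at hi hidx; omega
  let s : ℕ := (2 * (r : ℕ) + 1) * L.N + i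
  have hs1 : s / L.N = 2 * (r : ℕ) + 1 + i / L.N := by
    simp only [s]
    rw [Nat.mul_comm, Nat.mul_add_div L.pos]
  have hs2 : s % L.N = i % L.N := by
    simp only [s]
    rw [Nat.mul_comm, Nat.mul_add_mod]
  have hs3 : i / L.N < 2 := (Nat.div_lt_iff_lt_mul L.pos).2 hi2
  have hr : (r : ℕ) < L.R k := r.2
  obtain ⟨u', hu'⟩ : ∃ u' : ℕ, i / L.N = u' := ⟨_, rfl⟩
  rw [hu'] at hs1 hs3
  have hsN : s < (level M ρ (k + 1)).N := by
    show s < copies M ρ L k * L.N
    calc s < ((2 * (r : ℕ) + 1) + 2) * L.N := by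
          have := Nat.add_mul (2 * (r : ℕ) + 1) 2 L.N; simp only [s]; omega
      _ ≤ _ := Nat.mul_le_mul_right _ (by unfold copies; omega)
  have hidxs : (level M ρ (k + 1)).idx (n + j - q) = s := by
    have : n + j - q = ((s : ℕ) : ℤ) := by
      simp only [s, j]
      push_cast
      omega
    rw [this]
    exact Lvl.idx_natCast _ hsN
  have hnotJ : s ∉ (level M ρ (k + 1)).J := fun hmem =>
    (Finset.mem_filter.1 hmem).2.2 ⟨show 1 ≤ s / L.N by rw [hs1]; omega,
      show s / L.N ≤ 2 * L.R k by rw [hs1]; omega⟩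
  have hxval : x.1.1 (n + j) = L.nextW k s := by
    have := hq (n + j) (by rw [hidxs]; exact hnotJ)
    rw [hidxs] at this
    exact this
  show x.1.1 (n + j) ∈ Metric.closedBall (y.1.1 n) _
  rw [hxval, Metric.mem_closedBall]
  have hyn : n₀ + (i : ℤ) = n := by omega
  have hmodp : L.idx (n - p) = i % L.N := by
    have h1 := L.idx_cast (n - p)
    have h2 := L.idx_cast (-a - p)
    have h3 := Int.mul_ediv_add_emod (-a - p) L.N
    have e : n - p = (i : ℤ) + (L.N : ℤ) * ((-a - p) / L.N) := by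
      simp only [n₀] at hyn
      omega
    rw [e, Int.add_mul_emod_self_left, ← Int.natCast_mod] at h1
    rw [e]
    exact_mod_cast h1
  by_cases hJ : s % L.N ∈ L.J
  · rw [Lvl.nextW, dif_pos ⟨show 1 ≤ s / L.N by rw [hs1]; omega,
      show s / L.N ≤ 2 * L.R k by rw [hs1]; omega, hJ⟩]
    refine (dist_pi_le_iff (by positivity)).2 fun c => ?_
    have e1 : (s / L.N - 1) / 2 = (r : ℕ) := by rw [hs1]; omega
    have e2 : (s / L.N - 1) % 2 * L.N + s % L.N = i := by
      have h4 : (s / L.N - 1) % 2 = i / L.N := by rw [hs1, hu']; omega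
      rw [h4, hs2, Nat.mul_comm]
      exact Nat.div_add_mod i L.N
    have e3 : (Fintype.equivFin (L.Grid k)).symm
        ⟨(s / L.N - 1) / 2, show _ < L.R k by rw [hs1]; omega⟩ = g := by
      rw [Equiv.symm_apply_eq]
      exact Fin.ext e1
    rw [e3, Subtype.dist_eq, Real.dist_eq]
    simp only [g, e2, hyn]
    exact abs_round k _
  · rw [Lvl.nextW, dif_neg (fun h => hJ h.2.2)]
    have := hp n (by rw [hmodp, ← hs2]; exact hJ)
    rw [hmodp, ← hs2] at this
    rw [this, dist_self]
    positivity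

/-- The lift of the cube, in phase zero at every level. -/
def phasedLift (k : ℕ) (z : ↥(level M ρ k).J → Cube M) : phasedSpace M ρ :=
  ⟨(liftVal k z, fun l => ⟨0, (level M ρ l).pos⟩), fun l => ⟨Nat.zero_mod _, fun n hn => by
    simp only [Nat.cast_zero, sub_zero] at hn ⊢
    have h : ∃ l, (level M ρ l).idx n ∉ (level M ρ l).J := ⟨l, hn⟩
    rw [liftVal, dif_pos h]
    exact ((persist (Nat.find_le hn) (Nat.find_spec h)).2).symm⟩⟩

theorem continuous_phasedLift (k : ℕ) : Continuous (phasedLift (M := M) (ρ := ρ) k) :=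
  (((continuous_subtype_val.comp (continuous_cubeLift k)).prodMk continuous_const)).subtype_mk _

/-- The phase of a level, as a locally constant invariant. -/
def phaseC (k : ℕ) : C(phasedSpace M ρ, ℕ) :=
  ⟨fun x => (x.1.2 k : ℕ), continuous_of_discreteTopology.comp
    ((continuous_apply k).comp (continuous_snd.comp continuous_subtype_val))⟩

/-- Minimal cube systems of mean dimension exactly `m`, with cubes of rate `m`, and with clopen
sets met exactly periodically, the periods arbitrarily long, all containing the lifted cubes. -/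
theorem exists_periodicCubeSystem (hM : 0 < M) (h0 : 0 ≤ ρ) (h1 : ρ < 1) :
    ∃ (X : Type) (_ : TopologicalSpace X) (_ : CompactSpace X) (_ : T2Space X)
      (_ : TopologicalSpace.MetrizableSpace X) (_ : Infinite X) (h : X ≃ₜ X) (f : C(X, Cube M))
      (m : ℝ) (U : ℕ → Set X) (P : ℕ → ℕ),
      (∀ x, Dense (Set.range fun n : ℤ => orbitPt h n x)) ∧ ρ * M ≤ m ∧ m ≤ M ∧
      meanDim h = ENNReal.ofReal m ∧
      (∀ k, k < P k ∧ (∀ l ≤ k, P l ∣ P k) ∧ IsClopen (U k) ∧
        ∀ x, ∃ r : ℤ, ∀ j : ℤ, orbitPt h j x ∈ U k ↔ (P k : ℤ) ∣ j - r) ∧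
      ∀ N₀ : ℕ, ∃ N ≥ N₀, ∃ J ⊆ Finset.range N, m * N ≤ J.card * M ∧
        ∃ (w : ℕ → Cube M) (lift : C(↥J → Cube M, X)), (∀ z k, lift z ∈ U k) ∧ ∀ z,
          (∀ i (hi : i ∈ J), f ((⇑h)^[i] (lift z)) = z ⟨i, hi⟩) ∧
          ∀ i < N, i ∉ J → f ((⇑h)^[i] (lift z)) = w i := by
  have : CompactSpace (phasedSpace M ρ) := isCompact_iff_compactSpace.1
    isClosed_phasedSpace.isCompact
  let f : C(phasedSpace M ρ, Cube M) :=
    ⟨fun x => x.1.1 0, (continuous_apply 0).comp (continuous_fst.comp continuous_subtype_val)⟩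
  have hf : ∀ (n : ℤ) (x : phasedSpace M ρ), f (orbitPt phasedShift n x) = x.1.1 n := fun n x => by
    rw [orbitPt_phasedShift]
    simp [f, shiftPt]
  have hit : ∀ (i : ℕ) (x : phasedSpace M ρ), f ((⇑phasedShift)^[i] x) = x.1.1 i := fun i x => by
    rw [← orbitPt_natCast, hf]
  have hinf : Infinite (phasedSpace M ρ) := by
    have : Infinite (cubeSpace M ρ) := cubeSpace_infinite hM h0 h1
    have hpos : 0 < (level M ρ 1).J.card := by
      have := level_density (M := M) h1 1
      have hN : (0 : ℝ) < (level M ρ 1).N := by exact_mod_cast (level M ρ 1).pos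
      have : (0 : ℝ) < ((level M ρ 1).J.card : ℝ) :=
        lt_of_lt_of_le (mul_pos (by norm_num; linarith) hN) this
      exact_mod_cast this
    obtain ⟨i, hi⟩ := Finset.card_pos.1 hpos
    have : Infinite I := Set.infinite_coe_iff.2 (Set.Icc_infinite zero_lt_one)
    refine Infinite.of_injective (fun t : I => phasedLift 1 fun _ _ => t) fun t t' h => ?_
    have := congrArg (fun x : phasedSpace M ρ => x.1.1 (i : ℤ) ⟨0, hM⟩) h
    simpa [phasedLift, liftVal_free 1 _ hi] using this
  have hcube : ∀ N₀ : ℕ, ∃ N ≥ N₀, ∃ J ⊆ Finset.range N, cubeRate M ρ * N ≤ J.card * M ∧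
      ∃ (w : ℕ → Cube M) (lift : C(↥J → Cube M, phasedSpace M ρ)),
        (∀ z k, lift z ∈ {x : phasedSpace M ρ | (x.1.2 k : ℕ) = 0}) ∧ ∀ z,
        (∀ i (hi : i ∈ J), f ((⇑phasedShift)^[i] (lift z)) = z ⟨i, hi⟩) ∧
        ∀ i < N, i ∉ J → f ((⇑phasedShift)^[i] (lift z)) = w i := by
    intro N₀
    refine ⟨(level M ρ N₀).N, (level_grow N₀).le, (level M ρ N₀).J, (level M ρ N₀).subset, ?_,
      (level M ρ N₀).w, ⟨phasedLift N₀, continuous_phasedLift N₀⟩, fun z k => rfl,
      fun z => ⟨?_, ?_⟩⟩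
    · have hN : (0 : ℝ) < (level M ρ N₀).N := by exact_mod_cast (level M ρ N₀).pos
      have h2 := mul_le_mul_of_nonneg_left (ciInf_le (cubeRate_bddBelow M ρ) N₀)
        (Nat.cast_nonneg (α := ℝ) M)
      rw [mul_div_assoc', le_div_iff₀ hN] at h2
      rw [mul_comm ((level M ρ N₀).J.card : ℝ)]
      exact h2
    · intro i hi
      exact (hit i _).trans (liftVal_free N₀ z hi)
    · intro i hi hJ
      exact (hit i _).trans (liftVal_fixed N₀ z hi hJ)
  refine ⟨phasedSpace M ρ, inferInstance, inferInstance, inferInstance, inferInstance, hinf,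
    phasedShift, f, cubeRate M ρ, fun k => {x | (x.1.2 k : ℕ) = 0}, fun k => (level M ρ k).N,
    phasedShift_minimal, (cubeRate_bounds h1).1, (cubeRate_bounds h1).2, le_antisymm ?_ ?_,
    fun k => ⟨level_grow k, fun l hl => level_dvd hl, ?_, fun x => ⟨(x.1.2 k : ℕ), fun j => ?_⟩⟩,
    hcube⟩
  · have key : ∀ k, meanDim (phasedShift (M := M) (ρ := ρ)) ≤
        ENNReal.ofReal ((M : ℝ) * (level M ρ k).J.card / (level M ρ k).N) := fun k =>
      meanDim_le phasedShift f phaseC
        (fun {a b} hab x y hxy => by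
          show (x.1.2 a : ℕ) = y.1.2 a
          rw [← phase_compat x hab, ← phase_compat y hab, show (x.1.2 b : ℕ) = y.1.2 b from hxy])
        (fun k x y hxy => by
          show (level M ρ k).idx (((x.1.2 k : ℕ) : ℤ) - 1) = (level M ρ k).idx (((y.1.2 k : ℕ) : ℤ) - 1)
          rw [show (x.1.2 k : ℕ) = y.1.2 k from hxy])
        (fun x y hxy he => Subtype.ext (Prod.ext (funext fun n => by
          rw [← hf n x, ← hf n y, hxy n]) (funext fun k => Fin.ext (he k))))
        (level M ρ k).pos _ (level M ρ k).w fun x =>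
          ⟨((x.1.2 k : ℕ) : ℤ), fun n hn => (hf n x).trans ((x.2 k).2 n hn)⟩
    refine ENNReal.le_of_forall_pos_le_add fun ε hε _ => ?_
    have hMr : (0 : ℝ) < M := by exact_mod_cast hM
    obtain ⟨k, hk⟩ := exists_lt_of_ciInf_lt
      (show (⨅ k, ((level M ρ k).J.card : ℝ) / (level M ρ k).N) <
        (⨅ k, ((level M ρ k).J.card : ℝ) / (level M ρ k).N) + (ε : ℝ) / M by
          have : (0 : ℝ) < (ε : ℝ) / M := div_pos (by exact_mod_cast hε) hMr
          linarith)
    refine (key k).trans ?_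
    rw [← ENNReal.ofReal_coe_nnreal]
    refine le_trans (ENNReal.ofReal_le_ofReal ?_) ENNReal.ofReal_add_le
    have h2 := mul_le_mul_of_nonneg_left hk.le hMr.le
    rw [mul_add, mul_div_cancel₀ _ hMr.ne', mul_div_assoc'] at h2
    exact h2
  · refine meanDim_ge phasedShift f fun N₀ => ?_
    obtain ⟨N, hN, J, hJ, hc, _w, lift, -, hl⟩ := hcube N₀
    exact ⟨N, hN, J, hJ, hc, lift, fun z => (hl z).1⟩
  · exact (isClopen_discrete ({0} : Set ℕ)).preimage (phaseC k).continuous
  · rw [orbitPt_phasedShift]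
    show (level M ρ k).idx (((x.1.2 k : ℕ) : ℤ) - j) = 0 ↔ _
    rw [← Int.natCast_eq_zero, Lvl.idx_cast, ← Int.dvd_iff_emod_eq_zero, dvd_sub_comm]

end

end P093
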