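import Mathlib

/-!
# P093: Kuhn's cubical Sperner lemma and the covering theorem for cubes

A labelling of the grid `{0,…,K}^d` by `0,…,d` with label `≤ i` where the `i`-th coordinate is `0` and
`≠ i` where it is `K` has an odd number of fully labelled Kuhn simplices. Hence a finite open cover of
`[0,1]^d` by sets none of which meets two opposite faces has a point in `d + 1` members.
-/

namespace P093

open scoped Classical unitInterval

noncomputable section

namespace Kuhn

variable {d K : ℕ}

/-- A Kuhn simplex: a cube and an order of the coordinates. -/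
abbrev Simp (d K : ℕ) : Type := (Fin d → Fin K) × Equiv.Perm (Fin d)

/-- The vertices of a Kuhn simplex. -/
def vertex (p : Simp d K) (j : Fin (d + 1)) : Fin d → ℕ :=
  fun i => (p.1 i : ℕ) + if (p.2.symm i : ℕ) < j then 1 else 0

/-- All labels occur. -/
def Full (L : (Fin d → ℕ) → ℕ) (p : Simp d K) : Prop :=
  Finset.univ.image (fun j => L (vertex p j)) = Finset.range (d + 1)

/-- The facet without the vertex `j` has all labels but the last. -/
def Door (f : Fin (d + 2) → ℕ) (j : Fin (d + 2)) : Prop :=
  Finset.univ.image (fun k => f (j.succAbove k)) = Finset.range (d + 1)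

theorem sum_door (f : Fin (d + 2) → ℕ) (hf : ∀ j, f j ≤ d + 1) :
    ((Finset.univ.filter (Door f)).card : ZMod 2) =
      if Finset.univ.image f = Finset.range (d + 2) then 1 else 0 := by
  have himg : ∀ j, Finset.univ.image (fun k => f (j.succAbove k)) =
      (Finset.univ.erase j).image f := fun j => by
    rw [show (fun k => f (j.succAbove k)) = f ∘ j.succAbove from rfl, ← Finset.image_image,
      Fin.image_succAbove_univ, Finset.compl_singleton]
  by_cases hfull : Finset.univ.image f = Finset.range (d + 2)
  · rw [if_pos hfull]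
    have hinj : Set.InjOn f ↑(Finset.univ : Finset (Fin (d + 2))) :=
      Finset.injOn_of_card_image_eq (by rw [hfull]; simp)
    obtain ⟨j0, -, hj0⟩ := Finset.mem_image.1
      (show d + 1 ∈ Finset.univ.image f by rw [hfull]; simp)
    have : Finset.univ.filter (Door f) = {j0} := by
      ext j
      simp only [Finset.mem_filter, Finset.mem_univ, true_and, Finset.mem_singleton, Door, himg]
      constructor
      · intro h
        by_contra hne
        have : f j0 ∈ Finset.range (d + 1) := h ▸ Finset.mem_image_of_mem f
          (Finset.mem_erase.2 ⟨Ne.symm hne, Finset.mem_univ _⟩)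
        simp [hj0] at this
      · rintro rfl
        ext k
        simp only [Finset.mem_image, Finset.mem_erase, Finset.mem_univ, and_true, Finset.mem_range]
        constructor
        · rintro ⟨i, hi, rfl⟩
          have := hf i
          have : f i ≠ d + 1 := fun h => hi (hinj (by simp) (by simp) (h.trans hj0.symm))
          omega
        · intro hk
          obtain ⟨i, -, hi⟩ := Finset.mem_image.1
            (show k ∈ Finset.univ.image f by rw [hfull]; simp; omega)
          exact ⟨i, fun h => by subst h; omega, hi⟩
    simp [this]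
  · rw [if_neg hfull]
    by_cases hne : ∃ j, Door f j
    · obtain ⟨j0, hj0⟩ := hne
      have hj0' : (Finset.univ.erase j0).image f = Finset.range (d + 1) := (himg j0) ▸ hj0
      have hlt : f j0 ≤ d := by
        by_contra h
        refine hfull ?_
        have e : f j0 = d + 1 := by have := hf j0; omega
        rw [← Finset.insert_erase (Finset.mem_univ j0), Finset.image_insert, hj0', e,
          ← Finset.range_add_one]
      obtain ⟨j1, hj1, hj1f⟩ := Finset.mem_image.1
        (show f j0 ∈ (Finset.univ.erase j0).image f by rw [hj0']; simp; omega)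
      have hne10 : j1 ≠ j0 := (Finset.mem_erase.1 hj1).1
      have hset : Finset.univ.filter (Door f) = {j0, j1} := by
        ext j
        simp only [Finset.mem_filter, Finset.mem_univ, true_and, Finset.mem_insert,
          Finset.mem_singleton, Door, himg]
        constructor
        · intro h
          by_contra hj
          simp only [not_or] at hj
          have hinj : Set.InjOn f ↑(Finset.univ.erase j) :=
            Finset.injOn_of_card_image_eq (by rw [h]; simp)
          exact hne10 (hinj (by simp [Ne.symm hj.2]) (by simp [Ne.symm hj.1]) hj1f)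
        · rintro (rfl | rfl)
          · exact hj0'
          · rw [← hj0']
            ext k
            simp only [Finset.mem_image, Finset.mem_erase, Finset.mem_univ, and_true]
            constructor
            · rintro ⟨i, hi, rfl⟩
              by_cases h : i = j0
              · exact ⟨j, hne10, by rw [h, hj1f]⟩
              · exact ⟨i, h, rfl⟩
            · rintro ⟨i, hi, rfl⟩
              by_cases h : i = j
              · exact ⟨j0, Ne.symm hne10, by rw [h, hj1f]⟩
              · exact ⟨i, h, rfl⟩
      rw [hset, Finset.card_pair (Ne.symm hne10)]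
      rfl
    · have : Finset.univ.filter (Door f) = ∅ :=
        Finset.filter_eq_empty_iff.2 fun j _ hj => hne ⟨j, hj⟩
      simp [this]

/-- The hypotheses on a labelling. -/
structure Admissible (L : (Fin d → ℕ) → ℕ) (K : ℕ) : Prop where
  le : ∀ x, (∀ i, x i ≤ K) → L x ≤ d
  zero : ∀ x : Fin d → ℕ, (∀ i, x i ≤ K) → ∀ i : Fin d, x i = 0 → L x ≤ (i : ℕ)
  top : ∀ x : Fin d → ℕ, (∀ i, x i ≤ K) → ∀ i : Fin d, x i = K → L x ≠ (i : ℕ)

theorem vertex_le (p : Simp d K) (j : Fin (d + 1)) (i : Fin d) : vertex p j i ≤ K := by
  have := (p.1 i).2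
  unfold vertex
  split_ifs <;> omega

/-- Two simplices sharing the facet without `j` respectively `j'` have the same doors. -/
theorem door_congr {L : (Fin (d + 1) → ℕ) → ℕ} {p p' : Simp (d + 1) K} {j j' : Fin (d + 2)}
    (h : ∀ k, vertex p' (j'.succAbove k) = vertex p (j.succAbove k)) :
    Door (fun i => L (vertex p i)) j → Door (fun i => L (vertex p' i)) j' := by
  intro hd
  unfold Door at hd ⊢
  rw [← hd]
  exact congrArg (fun F => Finset.image F Finset.univ) (funext fun k => congrArg L (h k))

/-- The door lies on the face where the last free coordinate of the order vanishes. -/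
def Low (p : Simp (d + 1) K) (j : Fin (d + 2)) : Prop :=
  j = Fin.last (d + 1) ∧ (p.1 (p.2 (Fin.last d)) : ℕ) = 0

/-- No door lies on a face where a coordinate is `K`. -/
theorem first_not_top {L : (Fin (d + 1) → ℕ) → ℕ} (hL : Admissible L K) {p : Simp (d + 1) K}
    (hd : Door (fun i => L (vertex p i)) 0) : (p.1 (p.2 0) : ℕ) + 1 < K := by
  by_contra h
  have hc : ((p.2 0 : Fin (d + 1)) : ℕ) ∈
      Finset.univ.image fun k => L (vertex p ((0 : Fin (d + 2)).succAbove k)) := by
    rw [show _ = Finset.range (d + 1) from hd]
    exact Finset.mem_range.2 (p.2 0).2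
  obtain ⟨k, -, hk⟩ := Finset.mem_image.1 hc
  refine hL.top _ (vertex_le p _) (p.2 0) ?_ hk
  have := (p.1 (p.2 0)).2
  simp only [vertex, Fin.succAbove_zero, Equiv.symm_apply_apply, Fin.val_zero, Fin.val_succ,
    Nat.succ_pos', if_true]
  omega

/-- The neighbour across the facet without the first vertex. -/
def up (p : Simp (d + 1) K) (h : (p.1 (p.2 0) : ℕ) + 1 < K) : Simp (d + 1) K :=
  (Function.update p.1 (p.2 0) ⟨(p.1 (p.2 0) : ℕ) + 1, h⟩, p.2 * finRotate (d + 1))

/-- The neighbour across the facet without the last vertex. -/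
def down (p : Simp (d + 1) K) : Simp (d + 1) K :=
  (Function.update p.1 (p.2 (Fin.last d))
    ⟨(p.1 (p.2 (Fin.last d)) : ℕ) - 1, lt_of_le_of_lt (Nat.sub_le _ _) (p.1 _).2⟩,
    p.2 * (finRotate (d + 1))⁻¹)

theorem finRotate_symm_val (x : Fin (d + 1)) :
    (((finRotate (d + 1)).symm x : Fin (d + 1)) : ℕ) = if x = 0 then d else (x : ℕ) - 1 := by
  obtain ⟨y, rfl⟩ := (finRotate (d + 1)).surjective x
  rw [Equiv.symm_apply_apply]
  by_cases hy : y = Fin.last d
  · subst hy
    rw [finRotate_last, if_pos rfl, Fin.val_last]
  · have hv : (finRotate (d + 1) y : ℕ) = (y : ℕ) + 1 := coe_finRotate_of_ne_last hy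
    rw [if_neg (fun h => by simp [h] at hv), hv, Nat.add_sub_cancel]

theorem vertex_up (p : Simp (d + 1) K) (h : (p.1 (p.2 0) : ℕ) + 1 < K) (k : Fin (d + 1)) :
    vertex (up p h) k.castSucc = vertex p k.succ := by
  funext i
  have hsymm : (((up p h).2.symm i : Fin (d + 1)) : ℕ) =
      if p.2.symm i = 0 then d else (p.2.symm i : ℕ) - 1 := finRotate_symm_val _
  have hk := k.2
  unfold vertex
  rw [hsymm]
  by_cases hi : p.2.symm i = 0
  · have hi' : i = p.2 0 := by rw [← hi, Equiv.apply_symm_apply]
    subst hi'
    simp only [up, Function.update_self, Equiv.symm_apply_apply, if_true, Fin.val_castSucc,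
      Fin.val_succ, Fin.val_zero]
    rw [if_neg (by omega), if_pos (by omega)]
  · have hne : i ≠ p.2 0 := fun e => hi (by rw [e, Equiv.symm_apply_apply])
    have hpos : 0 < ((p.2.symm i : Fin (d + 1)) : ℕ) :=
      Nat.pos_of_ne_zero fun e => hi (Fin.ext e)
    simp only [up, Function.update_of_ne hne, if_neg hi, Fin.val_castSucc, Fin.val_succ]
    split_ifs <;> omega

theorem down_val (p : Simp (d + 1) K) (h : (p.1 (p.2 (Fin.last d)) : ℕ) ≠ 0) :
    ((down p).1 ((down p).2 0) : ℕ) + 1 < K ∧ ∀ h', up (down p) h' = p := by
  have h0 : (down p).2 0 = p.2 (Fin.last d) := by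
    simp only [down, Equiv.Perm.coe_mul, Function.comp_apply, Equiv.Perm.inv_def]
    congr 1
  have hlt := (p.1 (p.2 (Fin.last d))).2
  refine ⟨?_, fun h' => ?_⟩
  · rw [h0]
    simp only [down, Function.update_self]
    omega
  · refine Prod.ext ?_ ?_
    · funext i
      simp only [up, h0]
      by_cases hi : i = p.2 (Fin.last d)
      · subst hi
        simp only [down, Function.update_self, Fin.ext_iff]
        omega
      · simp only [down, Function.update_of_ne hi]
    · simp only [up, down]
      group

theorem up_val (p : Simp (d + 1) K) (h : (p.1 (p.2 0) : ℕ) + 1 < K) :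
    ((up p h).1 ((up p h).2 (Fin.last d)) : ℕ) ≠ 0 ∧ down (up p h) = p := by
  have h0 : (up p h).2 (Fin.last d) = p.2 0 := by
    simp [up]
  refine ⟨?_, ?_⟩
  · rw [h0]
    simp [up]
  · refine Prod.ext ?_ ?_
    · funext i
      simp only [down, h0]
      by_cases hi : i = p.2 0
      · subst hi
        simp [up]
      · simp only [up, Function.update_of_ne hi]
    · simp only [up, down]
      group

/-- The neighbour across an interior facet. -/
def flip (p : Simp (d + 1) K) (j : Fin (d + 2)) (h0 : j ≠ 0) (hl : j ≠ Fin.last (d + 1)) :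
    Simp (d + 1) K :=
  (p.1, p.2 * Equiv.swap ⟨(j : ℕ) - 1, by have := j.2; omega⟩
    ⟨(j : ℕ), by have := Fin.val_lt_last hl; omega⟩)

theorem vertex_flip (p : Simp (d + 1) K) (j : Fin (d + 2)) (h0 : j ≠ 0)
    (hl : j ≠ Fin.last (d + 1)) (k : Fin (d + 2)) (hk : k ≠ j) :
    vertex (flip p j h0 hl) k = vertex p k := by
  funext i
  unfold vertex
  have hj : 0 < (j : ℕ) := Nat.pos_of_ne_zero fun e => h0 (Fin.ext e)
  have hk' : (k : ℕ) ≠ j := fun e => hk (Fin.ext e)
  have he : (flip p j h0 hl).2.symm i = Equiv.swap (⟨(j : ℕ) - 1, by omega⟩ : Fin (d + 1))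
      ⟨(j : ℕ), by have := Fin.val_lt_last hl; omega⟩ (p.2.symm i) := rfl
  rw [he, Equiv.swap_apply_def]
  simp only [flip]
  congr 1
  split_ifs <;> simp_all [Fin.ext_iff] <;> omega

/-- Doors inside the cube cancel in pairs. -/
theorem even_doors {L : (Fin (d + 1) → ℕ) → ℕ} (hL : Admissible L K) :
    (((Finset.univ : Finset (Simp (d + 1) K × Fin (d + 2))).filter fun q =>
      Door (fun i => L (vertex q.1 i)) q.2 ∧ ¬ Low q.1 q.2).card : ZMod 2) = 0 := by
  rw [Finset.card_eq_sum_ones, Nat.cast_sum]
  refine Finset.sum_involution (fun q hq =>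
    if h0 : q.2 = 0 then
      (up q.1 (first_not_top hL (h0 ▸ (Finset.mem_filter.1 hq).2.1)), Fin.last (d + 1))
    else if hl : q.2 = Fin.last (d + 1) then (down q.1, 0)
    else (flip q.1 q.2 h0 hl, q.2)) (fun q _ => by decide) ?_ ?_ ?_
  · rintro ⟨p, j⟩ hq - he
    obtain ⟨hd, hb⟩ := (Finset.mem_filter.1 hq).2
    simp only at he hd hb
    split_ifs at he with h0 hl
    · have h2 := congrArg Prod.snd he
      simp only [h0] at h2
      exact absurd h2 (Fin.last_pos (n := d)).ne'
    · exact h0 (congrArg Prod.snd he).symm
    · have h1 := congrArg (fun t => t.1.2) he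
      simp only [flip] at h1
      have := mul_eq_left.1 h1
      rw [Equiv.Perm.ext_iff] at this
      have := this ⟨(j : ℕ), by have := Fin.val_lt_last hl; omega⟩
      have hj : 0 < (j : ℕ) := Nat.pos_of_ne_zero fun e => h0 (Fin.ext e)
      simp [Fin.ext_iff] at this
      omega
  · rintro ⟨p, j⟩ hq
    obtain ⟨hd, hb⟩ := (Finset.mem_filter.1 hq).2
    simp only at hd hb
    refine Finset.mem_filter.2 ⟨Finset.mem_univ _, ?_⟩
    simp only
    split_ifs with h0 hl
    · subst h0
      refine ⟨door_congr (fun k => ?_) hd, fun hlow => (up_val p _).1 hlow.2⟩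
      rw [Fin.succAbove_last, Fin.succAbove_zero]
      exact vertex_up p _ k
    · subst hl
      have hv := fun h => hb ⟨rfl, h⟩
      refine ⟨door_congr (fun k => ?_) hd, fun hlow => (Fin.last_pos (n := d)).ne hlow.1⟩
      rw [Fin.succAbove_last, Fin.succAbove_zero]
      obtain ⟨h', hu⟩ := down_val p hv
      have := vertex_up (down p) h' k
      rw [hu h'] at this
      exact this.symm
    · exact ⟨door_congr (fun k => vertex_flip p j h0 hl _ (Fin.succAbove_ne j k)) hd,
        fun hlow => hl hlow.1⟩
  · rintro ⟨p, j⟩ hq
    obtain ⟨hd, hb⟩ := (Finset.mem_filter.1 hq).2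
    simp only at hd hb ⊢
    by_cases h0 : j = 0
    · subst h0
      simp [(Fin.last_pos (n := d)).ne', (up_val p _).2]
    · by_cases hl : j = Fin.last (d + 1)
      · subst hl
        obtain ⟨h', hu⟩ := down_val p fun h => hb ⟨rfl, h⟩
        simp [(Fin.last_pos (n := d)).ne', hu]
      · simp [h0, hl, flip, mul_assoc, Equiv.swap_mul_self]

/-- A simplex one dimension down, placed in the face where the last coordinate vanishes. -/
def lift (p : Simp d K) (hK : 0 < K) : Simp (d + 1) K :=
  (Fin.snoc p.1 ⟨0, hK⟩, Equiv.ofBijective (Fin.snoc (fun i => (p.2 i).castSucc) (Fin.last d))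
    (Finite.injective_iff_bijective.1 (Fin.snoc_injective_iff.2
      ⟨(Fin.castSucc_injective d).comp p.2.injective, by
        rintro ⟨i, hi⟩
        exact (Fin.castSucc_lt_last (p.2 i)).ne hi⟩)))

theorem vertex_lift (p : Simp d K) (hK : 0 < K) (k : Fin (d + 1)) :
    vertex (lift p hK) k.castSucc = Fin.snoc (vertex p k) 0 := by
  funext i
  have hk := k.2
  refine Fin.lastCases ?_ (fun i => ?_) i
  · have he : (lift p hK).2.symm (Fin.last d) = Fin.last d :=
      (Equiv.symm_apply_eq _).2 (by simp [lift])
    simp only [vertex]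
    rw [he, if_neg (by simp; omega)]
    simp [lift]
  · have he : (lift p hK).2.symm i.castSucc = (p.2.symm i).castSucc :=
      (Equiv.symm_apply_eq _).2 (by simp [lift])
    simp only [vertex]
    rw [he]
    simp [lift, vertex]

/-- Kuhn's lemma: an admissible labelling has an odd number of fully labelled simplices. -/
theorem odd_full : ∀ {d : ℕ} {L : (Fin d → ℕ) → ℕ}, Admissible L K → 0 < K →
    ((Finset.univ.filter fun p : Simp d K => Full L p).card : ZMod 2) = 1 := by
  intro d
  induction d with
  | zero =>
    intro L hL _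
    have hall : ∀ p : Simp 0 K, Full L p := fun p => by
      have h0 : L (vertex p 0) = 0 := Nat.le_zero.1 (hL.le _ (vertex_le p 0))
      ext k
      simp only [Finset.mem_image, Finset.mem_univ, true_and, Finset.mem_range]
      exact ⟨fun ⟨i, hi⟩ => by
        obtain rfl : i = 0 := Fin.ext (by simp)
        omega,
        fun hk => ⟨0, by omega⟩⟩
    rw [Finset.filter_true_of_mem fun p _ => hall p]
    simp [Finset.card_univ]
  | succ d ih =>
    intro L hL hK
    have hlow : Admissible (fun x : Fin d → ℕ => L (Fin.snoc x 0)) K := by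
      have hle : ∀ x : Fin d → ℕ, (∀ i, x i ≤ K) → ∀ i, (Fin.snoc x 0 : Fin (d + 1) → ℕ) i ≤ K :=
        fun x hx i => Fin.lastCases (by simp) (fun i => by simp [hx i]) i
      exact ⟨fun x hx => by simpa using hL.zero _ (hle x hx) (Fin.last d) (by simp),
        fun x hx i hi => by simpa using hL.zero _ (hle x hx) i.castSucc (by simp [hi]),
        fun x hx i hi => by simpa using hL.top _ (hle x hx) i.castSucc (by simp [hi])⟩
    let A := (Finset.univ : Finset (Simp (d + 1) K × Fin (d + 2))).filter fun q =>
      Door (fun i => L (vertex q.1 i)) q.2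
    have hA1 : ((A.card : ℕ) : ZMod 2) =
        ((Finset.univ.filter fun p : Simp (d + 1) K => Full L p).card : ZMod 2) := by
      have : A.card = ∑ p : Simp (d + 1) K,
          (Finset.univ.filter (Door fun i => L (vertex p i))).card := by
        simp only [A, Finset.card_filter]
        exact Fintype.sum_prod_type _
      rw [this, Nat.cast_sum]
      rw [Finset.sum_congr rfl fun p _ => (sum_door _ fun j => hL.le _ (vertex_le p j)).trans
        (if_congr (Q := Full L p) Iff.rfl rfl rfl), Finset.sum_boole]
    have hA2 : A.card =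
        (A.filter fun q => Low q.1 q.2).card + (A.filter fun q => ¬ Low q.1 q.2).card :=
      (Finset.card_filter_add_card_filter_not _).symm
    have hA3 : (A.filter fun q => Low q.1 q.2).card =
        (Finset.univ.filter fun p : Simp d K => Full (fun x => L (Fin.snoc x 0)) p).card := by
      symm
      refine Finset.card_bij (fun p _ => (lift p hK, Fin.last (d + 1))) (fun p hp => ?_)
        (fun p _ p' _ he => ?_) fun q hq => ?_
      · refine Finset.mem_filter.2 ⟨Finset.mem_filter.2 ⟨Finset.mem_univ _, ?_⟩, rfl, ?_⟩
        · show Finset.univ.image _ = _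
          simp only [Fin.succAbove_last, vertex_lift]
          exact (Finset.mem_filter.1 hp).2
        · simp [lift]
      · have h1 := congrArg (fun t => t.1.1) he
        have h2 := congrArg (fun t => t.1.2) he
        simp only [lift] at h1 h2
        refine Prod.ext (funext fun i => ?_) (Equiv.ext fun i => ?_)
        · simpa using congrFun h1 i.castSucc
        · simpa using congrArg (fun e : Equiv.Perm (Fin (d + 1)) => e i.castSucc) h2
      · obtain ⟨hqA, hj, hv⟩ := Finset.mem_filter.1 hq
        obtain ⟨p, j⟩ := q
        simp only at hj hv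
        subst hj
        have hd := (Finset.mem_filter.1 hqA).2
        simp only at hd
        -- the vanishing coordinate is the last one
        have hc : p.2 (Fin.last d) = Fin.last d := by
          have hm : d ∈ Finset.univ.image fun k =>
              L (vertex p ((Fin.last (d + 1)).succAbove k)) := by
            rw [show _ = Finset.range (d + 1) from hd]
            simp
          obtain ⟨k, -, hk⟩ := Finset.mem_image.1 hm
          have := hL.zero _ (vertex_le p ((Fin.last (d + 1)).succAbove k)) (p.2 (Fin.last d)) (by
            have := k.2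
            simp only [vertex, Equiv.symm_apply_apply, Fin.succAbove_last, Fin.val_castSucc,
              Fin.val_last, hv]
            rw [if_neg (by omega)])
          have := (p.2 (Fin.last d)).2
          exact Fin.ext (by simp only [Fin.val_last]; omega)
        have hne : ∀ i : Fin d, p.2 i.castSucc ≠ Fin.last d := fun i hi =>
          (Fin.castSucc_lt_last i).ne (p.2.injective (hi.trans hc.symm))
        let τ : Fin d → Fin d := fun i => (p.2 i.castSucc).castPred (hne i)
        have hτ : Function.Injective τ := fun a b hab =>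
          Fin.castSucc_injective d (p.2.injective (by
            simpa [τ, Fin.castPred_inj] using hab))
        let p₀ : Simp d K := (fun i => p.1 i.castSucc,
          Equiv.ofBijective τ (Finite.injective_iff_bijective.1 hτ))
        have hp₀ : lift p₀ hK = p := by
          refine Prod.ext (funext fun i => ?_) (Equiv.ext fun i => ?_)
          · refine Fin.lastCases ?_ (fun i => ?_) i
            · simp only [lift, Fin.snoc_last]
              refine Fin.ext ?_
              rw [hc] at hv
              exact hv.symm
            · simp [lift, p₀]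
          · refine Fin.lastCases ?_ (fun i => ?_) i
            · simp [lift, hc]
            · simp [lift, p₀, τ]
        refine ⟨p₀, Finset.mem_filter.2 ⟨Finset.mem_univ _, ?_⟩, by rw [hp₀]⟩
        show Finset.univ.image _ = _
        rw [← hp₀] at hd
        simp only [Door, Fin.succAbove_last, vertex_lift] at hd
        exact hd
    have hA4 : ((A.filter fun q => ¬ Low q.1 q.2).card : ZMod 2) = 0 := by
      rw [Finset.filter_filter]
      exact even_doors hL
    rw [← hA1, hA2, Nat.cast_add, hA4, add_zero, hA3]
    exact ih hlow hK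

end Kuhn

open Kuhn in
/-- The covering theorem: a finite open cover of a cube in which no member meets two opposite
faces has a point in more members than the dimension. -/
theorem exists_mem_many {d : ℕ} {ι : Type*} [Fintype ι] (V : ι → Set (Fin d → I))
    (hV : ∀ i, IsOpen (V i)) (hcov : ∀ x, ∃ i, x ∈ V i)
    (hopp : ∀ i c, ¬ ((∃ x ∈ V i, x c = 0) ∧ ∃ x ∈ V i, x c = 1)) :
    ∃ x, d + 1 ≤ (Finset.univ.filter fun i => x ∈ V i).card := by
  obtain ⟨δ, hδ, hball⟩ := lebesgue_number_lemma_of_metric (isCompact_univ (X := Fin d → I)) hV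
    (fun x _ => Set.mem_iUnion.2 (hcov x))
  obtain ⟨K, hK⟩ := exists_nat_gt (1 / δ)
  have hK0 : (0 : ℝ) < K := lt_trans (by positivity) hK
  let pt : (Fin d → ℕ) → Fin d → I := fun x c =>
    Set.projIcc 0 1 zero_le_one ((x c : ℝ) / K)
  choose mem hmem using fun x => hball x (Set.mem_univ x)
  let cls : ι → ℕ := fun i =>
    if h : ∃ c : ℕ, ∃ hc : c < d, ∃ x ∈ V i, x ⟨c, hc⟩ = 0 then Nat.find h else d
  have hcls : ∀ i, cls i ≤ d := fun i => by
    simp only [cls]
    split_ifs with h
    · exact (Nat.find_spec h).1.le
    · exact le_rfl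
  have hadm : Admissible (fun x => cls (mem (pt x))) K := by
    refine ⟨fun x _ => hcls _, fun x hx c hc => ?_, fun x hx c hc => ?_⟩
    · have h0 : pt x c = 0 := by
        simp only [pt, hc, Nat.cast_zero, zero_div]
        exact Set.projIcc_left _
      have h : ∃ n : ℕ, ∃ hn : n < d, ∃ y ∈ V (mem (pt x)), y ⟨n, hn⟩ = 0 :=
        ⟨c, c.2, pt x, hmem _ (Metric.mem_ball_self hδ), h0⟩
      simp only [cls, dif_pos h]
      exact Nat.find_min' h ⟨c.2, pt x, hmem _ (Metric.mem_ball_self hδ), h0⟩
    · intro he
      have h1 : pt x c = 1 := by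
        simp only [pt, hc, div_self hK0.ne']
        exact Set.projIcc_right _
      simp only [cls] at he
      split_ifs at he with h
      · obtain ⟨hn, y, hy, hy0⟩ := Nat.find_spec h
        refine hopp (mem (pt x)) c ⟨⟨y, hy, ?_⟩, pt x, hmem _ (Metric.mem_ball_self hδ), h1⟩
        rw [← hy0]
        exact congrArg y (Fin.ext he.symm)
      · exact absurd he.symm c.2.ne
  have hodd := odd_full hadm (by exact_mod_cast hK0)
  obtain ⟨p, hp⟩ : (Finset.univ.filter fun p : Simp d K =>
      Full (fun x => cls (mem (pt x))) p).Nonempty := by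
    rw [← Finset.card_ne_zero]
    intro h
    rw [h] at hodd
    simp at hodd
  refine ⟨pt (vertex p 0), ?_⟩
  have hclose : ∀ j, pt (vertex p 0) ∈ V (mem (pt (vertex p j))) := fun j => by
    refine hmem _ (Metric.mem_ball.2 ((dist_pi_lt_iff hδ).2 fun c => ?_))
    refine lt_of_le_of_lt (?_ : _ ≤ (1 : ℝ) / K) ((one_div_lt hδ hK0).1 hK)
    refine le_trans (?_ : _ ≤ |((vertex p 0 c : ℕ) : ℝ) / K - ((vertex p j c : ℕ) : ℝ) / K|) ?_
    · rw [Subtype.dist_eq, Real.dist_eq]
      exact Set.abs_projIcc_sub_projIcc _
    · rw [← sub_div, abs_div, abs_of_pos hK0]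
      refine div_le_div_of_nonneg_right ?_ hK0.le
      simp only [vertex]
      split_ifs <;> simp
  have h1 : d + 1 ≤ (Finset.univ.image fun j => mem (pt (vertex p j))).card := by
    have h2 : ((Finset.univ.image fun j => mem (pt (vertex p j))).image cls).card = d + 1 := by
      rw [Finset.image_image]
      have : Finset.univ.image (fun j => cls (mem (pt (vertex p j)))) = Finset.range (d + 1) :=
        (Finset.mem_filter.1 hp).2
      rw [show (cls ∘ fun j => mem (pt (vertex p j))) = fun j => cls (mem (pt (vertex p j)))
        from rfl, this, Finset.card_range]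
    calc d + 1 = _ := h2.symm
      _ ≤ _ := Finset.card_image_le
  refine h1.trans (Finset.card_le_card fun i hi => ?_)
  obtain ⟨j, -, rfl⟩ := Finset.mem_image.1 hi
  exact Finset.mem_filter.2 ⟨Finset.mem_univ _, hclose j⟩

end

end P093
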