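import Mathlib

/-!
# P093: products of spheres in a cube, and the element of one block

The product of `d` two-spheres embeds in the cube of dimension `2 d + 1`. On it live `d` Bott
lines; a positive matrix function on the cube equals their sum on the image and has rank at least
`d` everywhere. Through the map `bottQuot`, which is even and onto, each line pulls back to the
line spanned by the odd vector `bottVec`.
-/

namespace P093

open scoped Classical unitInterval ComplexConjugate ComplexOrder

noncomputable section

/-- The two-sphere. -/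
abbrev S2 : Type := Metric.sphere (0 : EuclideanSpace ℝ (Fin 3)) 1

theorem S2.sum_sq (w : S2) : ∑ k : Fin 3, (w.1 k) ^ 2 = 1 := by
  have h : ‖w.1‖ = 1 := by simp
  rw [← EuclideanSpace.real_norm_sq_eq, h, one_pow]

theorem S2.abs_le_one (w : S2) (k : Fin 3) : |w.1 k| ≤ 1 := by
  have h : w.1 k ^ 2 ≤ 1 := by
    refine le_of_le_of_eq ?_ w.sum_sq
    exact Finset.single_le_sum (f := fun k => w.1 k ^ 2) (fun i _ => sq_nonneg _) (Finset.mem_univ k)
  exact (sq_le_one_iff_abs_le_one _).1 h

theorem S2.continuous_coord (k : Fin 3) : Continuous fun w : S2 => w.1 k :=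
  (PiLp.continuous_apply 2 (fun _ : Fin 3 => ℝ) k).comp continuous_subtype_val

/-- The unit vector spanning the line at `w`; it is odd in `w`. -/
def bottVec (w : S2) : Fin 2 → ℂ := ![⟨w.1 0, w.1 1⟩, (w.1 2 : ℂ)]

/-- The projection onto the sum of the `d` lines. -/
def bottPull {d : ℕ} (s : Fin d → S2) : Matrix (Fin d × Fin 2) (Fin d × Fin 2) ℂ :=
  Matrix.of fun p q => if p.1 = q.1 then bottVec (s p.1) p.2 * conj (bottVec (s q.1) q.2) else 0

theorem bottVec_norm (w : S2) : ∑ k : Fin 2, conj (bottVec w k) * bottVec w k = 1 := by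
  have h := w.sum_sq
  rw [Fin.sum_univ_three] at h
  rw [Fin.sum_univ_two]
  apply Complex.ext <;> simp [bottVec] <;> nlinarith

theorem bottPull_mulVec {d : ℕ} (s : Fin d → S2) (v : Fin d × Fin 2 → ℂ) (p : Fin d × Fin 2) :
    (bottPull s).mulVec v p =
      (∑ k, conj (bottVec (s p.1) k) * v (p.1, k)) * bottVec (s p.1) p.2 := by
  simp only [Matrix.mulVec, dotProduct, bottPull, Matrix.of_apply, Fintype.sum_prod_type,
    ite_mul, zero_mul, Finset.sum_ite_irrel, Finset.sum_const_zero, Finset.sum_ite_eq,
    Finset.mem_univ, if_true, Finset.sum_mul]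
  exact Finset.sum_congr rfl fun k _ => by ring

theorem bottPull_conjTranspose {d : ℕ} (s : Fin d → S2) : (bottPull s).conjTranspose = bottPull s := by
  ext p q
  obtain ⟨a, i⟩ := p
  obtain ⟨b, j⟩ := q
  simp only [Matrix.conjTranspose_apply, bottPull, Matrix.of_apply]
  by_cases h : a = b
  · subst h; simp [mul_comm]
  · simp [h, Ne.symm h]

theorem bottPull_mul_self {d : ℕ} (s : Fin d → S2) : bottPull s * bottPull s = bottPull s := by
  ext p q
  have h : (bottPull s * bottPull s) p q = (bottPull s).mulVec (fun r => bottPull s r q) p := rfl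
  rw [h, bottPull_mulVec]
  simp only [bottPull, Matrix.of_apply]
  by_cases hpq : p.1 = q.1
  · simp only [hpq, if_true, ← mul_assoc, ← Finset.sum_mul, bottVec_norm]
    ring
  · simp [hpq]

/-- The even map of the sphere onto itself through the projective plane. -/
def bottQuot (w : S2) : S2 :=
  ⟨WithLp.toLp 2 ![2 * w.1 0 * w.1 2, 2 * w.1 1 * w.1 2, w.1 0 ^ 2 + w.1 1 ^ 2 - w.1 2 ^ 2], by
    have h := w.sum_sq
    rw [Fin.sum_univ_three] at h
    rw [mem_sphere_zero_iff_norm, ← sq_eq_sq₀ (norm_nonneg _) zero_le_one,
      EuclideanSpace.real_norm_sq_eq, Fin.sum_univ_three, one_pow]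
    simp
    nlinarith⟩

theorem continuous_bottQuot : Continuous bottQuot := by
  refine Continuous.subtype_mk ((PiLp.continuous_toLp 2 (fun _ : Fin 3 => ℝ)).comp
    (continuous_pi fun k => ?_)) _
  have h0 := S2.continuous_coord 0
  have h1 := S2.continuous_coord 1
  have h2 := S2.continuous_coord 2
  fin_cases k <;> simp <;> fun_prop

theorem bottQuot_surjective : Function.Surjective bottQuot := by
  intro s
  have h := s.sum_sq
  rw [Fin.sum_univ_three] at h
  by_cases hs : s.1 2 = 1
  · refine ⟨⟨EuclideanSpace.single 0 1, by simp⟩, Subtype.ext (PiLp.ext fun k => ?_)⟩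
    have h0 : s.1 0 = 0 := by nlinarith
    have h1 : s.1 1 = 0 := by nlinarith
    fin_cases k <;> simp [bottQuot, hs, h0, h1]
  · have hlt : s.1 2 < 1 := lt_of_le_of_ne (le_trans (le_abs_self _) (s.abs_le_one 2)) hs
    let c := Real.sqrt ((1 - s.1 2) / 2)
    have hc : 0 < c := Real.sqrt_pos.2 (by linarith)
    have hc2 : c ^ 2 = (1 - s.1 2) / 2 := Real.sq_sqrt (by linarith)
    have ha : (s.1 0 / (2 * c)) ^ 2 + (s.1 1 / (2 * c)) ^ 2 = (1 + s.1 2) / 2 := by
      field_simp
      rw [hc2]
      nlinarith
    refine ⟨⟨WithLp.toLp 2 ![s.1 0 / (2 * c), s.1 1 / (2 * c), c], ?_⟩,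
      Subtype.ext (PiLp.ext fun k => ?_)⟩
    · rw [mem_sphere_zero_iff_norm, ← sq_eq_sq₀ (norm_nonneg _) zero_le_one,
        EuclideanSpace.real_norm_sq_eq, Fin.sum_univ_three, one_pow]
      simp
      nlinarith
    · fin_cases k
      · simp [bottQuot]; field_simp
      · simp [bottQuot]; field_simp
      · simp [bottQuot]; nlinarith

/-- The two-by-two Bott projection at a point of the sphere. -/
def bottProj (s : S2) : Fin 2 → Fin 2 → ℂ :=
  ![![⟨(1 + s.1 2) / 2, 0⟩, ⟨s.1 0 / 2, s.1 1 / 2⟩],
    ![⟨s.1 0 / 2, -(s.1 1) / 2⟩, ⟨(1 - s.1 2) / 2, 0⟩]]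

theorem bottProj_quot (w : S2) (i j : Fin 2) :
    bottProj (bottQuot w) i j = bottVec w i * conj (bottVec w j) := by
  have h := w.sum_sq
  rw [Fin.sum_univ_three] at h
  fin_cases i <;> fin_cases j <;> apply Complex.ext <;> simp [bottProj, bottQuot, bottVec] <;>
    nlinarith

/-- The sum of the Bott projections of `d` spheres. -/
def bottSum {d : ℕ} (s : Fin d → S2) : Matrix (Fin d × Fin 2) (Fin d × Fin 2) ℂ :=
  Matrix.of fun p q => if p.1 = q.1 then bottProj (s p.1) p.2 q.2 else 0

theorem bottSum_quot {d : ℕ} (w : Fin d → S2) : bottSum (fun i => bottQuot (w i)) = bottPull w := by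
  ext p q
  simp only [bottSum, bottPull, Matrix.of_apply]
  by_cases h : p.1 = q.1
  · simp [h, bottProj_quot]
  · simp [h]

theorem exists_lift_bottSum {d : ℕ} (s : Fin d → S2) :
    ∃ w : Fin d → S2, (fun i => bottQuot (w i)) = s ∧ bottSum s = bottPull w := by
  choose w hw using fun i => bottQuot_surjective (s i)
  refine ⟨w, funext hw, ?_⟩
  rw [← bottSum_quot, funext hw]

/-- The embedding of the product of spheres in Euclidean space of one dimension more. -/
def sphereRaw : ∀ d : ℕ, (Fin d → S2) → Fin (2 * d + 1) → ℝ
  | 0, _ => fun _ => 0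
  | d + 1, s => fun k =>
      if h : (k : ℕ) < 3 then (1 / 2 + sphereRaw d (fun i => s i.succ) 0 / 4) * (s 0).1 ⟨k, h⟩
      else sphereRaw d (fun i => s i.succ) ⟨(k : ℕ) - 2, by have := k.2; omega⟩

theorem sphereRaw_le : ∀ d (s : Fin d → S2) k, |sphereRaw d s k| ≤ 1
  | 0, _, _ => by simp [sphereRaw]
  | d + 1, s, k => by
    simp only [sphereRaw]
    split_ifs with h
    · have h1 := abs_le.1 (sphereRaw_le d (fun i => s i.succ) 0)
      rw [abs_mul]
      refine mul_le_one₀ ?_ (abs_nonneg _) ((s 0).abs_le_one _)
      rw [abs_le]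
      constructor <;> linarith
    · exact sphereRaw_le d _ _

theorem continuous_sphereRaw : ∀ d, Continuous (sphereRaw d)
  | 0 => continuous_pi fun _ => continuous_const
  | d + 1 => by
    have ht : Continuous fun s : Fin (d + 1) → S2 => fun i : Fin d => s i.succ :=
      continuous_pi fun i => continuous_apply i.succ
    have hu := (continuous_sphereRaw d).comp ht
    refine continuous_pi fun k => ?_
    simp only [sphereRaw]
    split_ifs with h
    · exact ((continuous_const.add (((continuous_apply 0).comp hu).div_const 4))).mul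
        ((S2.continuous_coord ⟨k, h⟩).comp (continuous_apply 0))
    · exact (continuous_apply _).comp hu

theorem sphereRaw_injective : ∀ d, Function.Injective (sphereRaw d)
  | 0 => fun s t _ => funext fun i => i.elim0
  | d + 1 => by
    intro s t hst
    have hc : ∀ (k : Fin 3),
        (1 / 2 + sphereRaw d (fun i => s i.succ) 0 / 4) * (s 0).1 k =
          (1 / 2 + sphereRaw d (fun i => t i.succ) 0 / 4) * (t 0).1 k := fun k => by
      have := congrFun hst ⟨k, by have := k.2; omega⟩
      simpa [sphereRaw, k.2] using this
    have h2 : ∑ k, ((1 / 2 + sphereRaw d (fun i => s i.succ) 0 / 4) * (s 0).1 k) ^ 2 =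
        ∑ k, ((1 / 2 + sphereRaw d (fun i => t i.succ) 0 / 4) * (t 0).1 k) ^ 2 :=
      Finset.sum_congr rfl fun k _ => by rw [hc]
    simp only [mul_pow, ← Finset.mul_sum, (s 0).sum_sq, (t 0).sum_sq, mul_one] at h2
    have hs := abs_le.1 (sphereRaw_le d (fun i => s i.succ) 0)
    have ht := abs_le.1 (sphereRaw_le d (fun i => t i.succ) 0)
    have hR := (sq_eq_sq₀ (by linarith) (by linarith)).1 h2
    have hpos : (0 : ℝ) < 1 / 2 + sphereRaw d (fun i => t i.succ) 0 / 4 := by linarith
    have h0 : s 0 = t 0 := by
      refine Subtype.ext (PiLp.ext fun k => ?_)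
      have := hc k
      rw [hR] at this
      exact mul_left_cancel₀ hpos.ne' this
    have htail : (fun i : Fin d => s i.succ) = fun i : Fin d => t i.succ := by
      refine sphereRaw_injective d (funext fun k => ?_)
      by_cases hk : (k : ℕ) = 0
      · have : k = 0 := Fin.ext hk
        subst this
        linarith
      · have := congrFun hst ⟨(k : ℕ) + 2, by have := k.2; omega⟩
        simp only [sphereRaw, dif_neg (show ¬ (k : ℕ) + 2 < 3 by omega)] at this
        simpa using this
    funext i
    refine Fin.cases h0 (fun i => congrFun htail i) i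

/-- The element of one block: a positive matrix function on the cube with rank at least `d`, equal
to the sum of the lines on an embedded product of `d` spheres. -/
theorem exists_blockElement (d : ℕ) :
    ∃ (e : C(Fin d → S2, Fin (2 * d + 1) → I))
      (β : C(Fin (2 * d + 1) → I, Matrix (Fin d × Fin 2) (Fin d × Fin 2) ℂ)),
      Function.Injective e ∧ (∀ y, (β y).PosSemidef) ∧ (∀ y, d ≤ (β y).rank) ∧
        ∀ s, β (e s) = bottSum s := by
  let e : C(Fin d → S2, Fin (2 * d + 1) → I) :=
    ⟨fun s k => ⟨(sphereRaw d s k + 1) / 2, by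
      have := abs_le.1 (sphereRaw_le d s k)
      constructor <;> linarith⟩,
      continuous_pi fun k => Continuous.subtype_mk
        ((((continuous_apply k).comp (continuous_sphereRaw d)).add continuous_const).div_const 2) _⟩
  have he : Function.Injective e := fun s t hst => sphereRaw_injective d (funext fun k => by
    have := congrArg (fun y : Fin (2 * d + 1) → I => (y k : ℝ)) hst
    simp only [e, ContinuousMap.coe_mk] at this
    linarith)
  have hemb : Topology.IsClosedEmbedding e := e.continuous.isClosedEmbedding he
  have hp : ∀ p q, Continuous fun s : Fin d → S2 => bottSum s p q := by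
    intro p q
    simp only [bottSum, Matrix.of_apply]
    have hv : ∀ i j, Continuous fun w : S2 => bottProj w i j := fun i j => by
      have h0 := S2.continuous_coord 0
      have h1 := S2.continuous_coord 1
      have h2 := S2.continuous_coord 2
      fin_cases i <;> fin_cases j
      · exact Complex.equivRealProdCLM.symm.continuous.comp
          (((continuous_const.add h2).div_const 2).prodMk continuous_const)
      · exact Complex.equivRealProdCLM.symm.continuous.comp
          ((h0.div_const 2).prodMk (h1.div_const 2))
      · exact Complex.equivRealProdCLM.symm.continuous.comp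
          ((h0.div_const 2).prodMk (h1.neg.div_const 2))
      · exact Complex.equivRealProdCLM.symm.continuous.comp
          (((continuous_const.sub h2).div_const 2).prodMk continuous_const)
    split_ifs
    · exact (hv p.2 q.2).comp (continuous_apply p.1)
    · exact continuous_const
  choose E hE using fun p q => ContinuousMap.exists_extension hemb ⟨_, hp p q⟩
  let Em : (Fin (2 * d + 1) → I) → Matrix (Fin d × Fin 2) (Fin d × Fin 2) ℂ :=
    fun y => Matrix.of fun p q => E p q y
  have hEm : ∀ s, Em (e s) = bottSum s := fun s => by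
    ext p q
    exact congrArg (fun g : C(Fin d → S2, ℂ) => g s) (hE p q)
  have hEc : Continuous Em := continuous_matrix fun p q => (E p q).continuous
  let δ : (Fin (2 * d + 1) → I) → ℝ := fun y => Metric.infDist y (Set.range e)
  have hδ : Continuous δ := Metric.continuous_infDist_pt _
  let β : (Fin (2 * d + 1) → I) → Matrix (Fin d × Fin 2) (Fin d × Fin 2) ℂ :=
    fun y => (Em y).conjTranspose * Em y + (δ y : ℂ) • 1
  have hβ : Continuous β := (hEc.matrix_conjTranspose.matrix_mul hEc).add
    ((Complex.continuous_ofReal.comp hδ).smul continuous_const)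
  have hon : ∀ s, β (e s) = bottSum s := fun s => by
    have h0 : δ (e s) = 0 := Metric.infDist_zero_of_mem ⟨s, rfl⟩
    obtain ⟨w, -, hw⟩ := exists_lift_bottSum s
    simp [β, h0, hEm, hw, bottPull_conjTranspose, bottPull_mul_self]
  have hnn : ∀ y, (0 : ℂ) ≤ (δ y : ℂ) := fun y => by
    exact_mod_cast Metric.infDist_nonneg
  refine ⟨e, ⟨β, hβ⟩, he, fun y => ?_, fun y => ?_, hon⟩
  · exact (Matrix.posSemidef_conjTranspose_mul_self _).add (Matrix.PosSemidef.one.smul (hnn y))
  · by_cases hy : y ∈ Set.range e
    · obtain ⟨s, rfl⟩ := hy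
      show d ≤ (β (e s)).rank
      rw [hon]
      obtain ⟨w, -, hw⟩ := exists_lift_bottSum s
      rw [hw]
      clear hw
      revert w
      intro s
      let F : (Fin d → ℂ) →ₗ[ℂ] LinearMap.range (bottPull s).mulVecLin :=
        { toFun := fun c => ⟨fun p => c p.1 * bottVec (s p.1) p.2,
            fun p => c p.1 * bottVec (s p.1) p.2, funext fun p => by
              show (bottPull s).mulVec _ p = _
              rw [bottPull_mulVec]
              congr 1
              rw [Finset.sum_congr rfl fun k _ => show
                conj (bottVec (s p.1) k) * (c p.1 * bottVec (s p.1) k) =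
                  c p.1 * (conj (bottVec (s p.1) k) * bottVec (s p.1) k) by ring,
                ← Finset.mul_sum, bottVec_norm, mul_one]⟩
          map_add' := fun c c' => Subtype.ext (funext fun p => by simp [add_mul])
          map_smul' := fun t c => Subtype.ext (funext fun p => by simp [mul_assoc]) }
      have hF : Function.Injective F := fun c c' h => funext fun i => by
        have h' : ∀ k, c i * bottVec (s i) k = c' i * bottVec (s i) k := fun k =>
          congrFun (congrArg Subtype.val h) (i, k)
        calc c i = c i * ∑ k, conj (bottVec (s i) k) * bottVec (s i) k := by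
              rw [bottVec_norm, mul_one]
          _ = c' i * ∑ k, conj (bottVec (s i) k) * bottVec (s i) k := by
              rw [Finset.mul_sum, Finset.mul_sum]
              exact Finset.sum_congr rfl fun k _ => by linear_combination (conj (bottVec (s i) k)) * h' k
          _ = c' i := by rw [bottVec_norm, mul_one]
      have := LinearMap.finrank_le_finrank_of_injective hF
      simpa [Matrix.rank] using this
    · have : Nonempty S2 := ⟨⟨EuclideanSpace.single 0 1, by simp⟩⟩
      have hpos : 0 < δ y :=
        (hemb.isClosed_range.notMem_iff_infDist_pos (Set.range_nonempty e)).1 hy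
      have hpd : (β y).PosDef := Matrix.PosDef.posSemidef_add
        (Matrix.posSemidef_conjTranspose_mul_self (Em y))
        (Matrix.PosDef.one.smul (show (0 : ℂ) < (δ y : ℂ) by exact_mod_cast hpos))
      show d ≤ (β y).rank
      rw [Matrix.rank_of_isUnit _ hpd.isUnit]
      simp only [Fintype.card_prod, Fintype.card_fin]
      omega

end

end P093
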