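import Mathlib

/-!
# P093: positive diagonal entries contain a trivial bundle

If at every point at least `Q` of the nonnegative functions `g i` are positive, then the Vandermonde
vectors `(g i * i ^ j)` form, pointwise, `Q` independent vectors supported on the positive entries.
-/

namespace P093

open scoped Classical

variable {Y : Type*} [TopologicalSpace Y] {I : Type*} [Fintype I]

/-- Columns `j < Q` of the weighted Vandermonde matrix of the functions `g`. -/
noncomputable def vander (g : I → C(Y, ℝ)) (Q : ℕ) (y : Y) : Matrix I (Fin Q) ℂ :=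
  Matrix.of fun i j => (g i y : ℂ) * ((Fintype.equivFin I i : ℕ) : ℂ) ^ (j : ℕ)

theorem vander_apply (g : I → C(Y, ℝ)) (Q : ℕ) (y : Y) (i : I) (j : Fin Q) :
    vander g Q y i j = (g i y : ℂ) * ((Fintype.equivFin I i : ℕ) : ℂ) ^ (j : ℕ) := rfl

theorem continuous_vander (g : I → C(Y, ℝ)) (Q : ℕ) : Continuous (vander g Q) :=
  continuous_matrix fun i _ =>
    (Complex.continuous_ofReal.comp (g i).continuous).mul continuous_const

theorem vander_support (g : I → C(Y, ℝ)) (Q : ℕ) (y : Y) (i : I) (h : g i y = 0) (j : Fin Q) :
    vander g Q y i j = 0 := by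
  simp [vander_apply, h]

/-- If at every point `Q` entries are positive then the columns are pointwise independent. -/
theorem vander_injective (g : I → C(Y, ℝ)) (Q : ℕ) (y : Y)
    (hQ : Q ≤ (Finset.univ.filter fun i => 0 < g i y).card) :
    Function.Injective fun c : Fin Q → ℂ => (vander g Q y).mulVec c := by
  intro c c' h
  suffices hz : ∀ j, (c - c') j = 0 from funext fun j => sub_eq_zero.1 (hz j)
  obtain ⟨S, hS, hcard⟩ := Finset.exists_subset_card_eq hQ
  let v : Fin Q → ℂ := fun k => ((Fintype.equivFin I (S.equivFinOfCardEq hcard |>.symm k).1 : ℕ) : ℂ)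
  have hv : Function.Injective v := by
    intro a b hab
    simp only [v, Nat.cast_inj] at hab
    exact (S.equivFinOfCardEq hcard).symm.injective
      (Subtype.ext ((Fintype.equivFin I).injective (Fin.ext hab)))
  intro j
  refine congrFun (Matrix.eq_zero_of_forall_index_sum_mul_pow_eq_zero (f := v) (v := c - c') hv
    fun k => ?_) j
  let i := ((S.equivFinOfCardEq hcard).symm k).1
  have hi : 0 < g i y := (Finset.mem_filter.1 (hS ((S.equivFinOfCardEq hcard).symm k).2)).2
  have h0 : (vander g Q y).mulVec (c - c') i = 0 := by
    rw [Matrix.mulVec_sub]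
    simp only at h
    rw [h, sub_self, Pi.zero_apply]
  have hsum : (g i y : ℂ) * ∑ l : Fin Q, (c - c') l * v k ^ (l : ℕ) = 0 := by
    rw [← h0, Matrix.mulVec, dotProduct, Finset.mul_sum]
    refine Finset.sum_congr rfl fun l _ => ?_
    simp only [vander_apply, v, i]
    ring
  exact (mul_eq_zero.1 hsum).resolve_left (by exact_mod_cast hi.ne')

end P093
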